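import Vale.Agent.P168.Sync.Basic

/-!
P168: overlaps determined by the tree, and the centring of one more replica.
-/

namespace Vale.Agent.P168

open MeasureTheory

/-- Every overlap on the first `k` replicas is a function of their matrix. -/
def Determined (L : Lim) (X : ℕ → ℕ → Cube → ℝ) (k : ℕ) : Prop :=
  ∀ (j : Spc) (A : Pat j.1), Below k A → ∃ Ψ : (Fin k → Fin k → ℝ) → ℝ, Measurable Ψ ∧
    (∀ M, |Ψ M| ≤ 1) ∧ ∀ᵐ ω ∂L.P, R j A ω = Ψ (matS X k ω)

/-- `G` is the average of the overlap of the replica `k` given its place. -/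
structure IsCenter (L : Lim) (X : ℕ → ℕ → Cube → ℝ) (k : ℕ) (j : Spc) (A : Pat j.1)
    (B : Finset (Fin j.1)) (G : Place k → ℝ) : Prop where
  meas : Measurable G
  bdd : ∀ q, |G q| ≤ 1
  orth : ∀ h : Place k → ℝ, Measurable h → (∃ C, ∀ q, |h q| ≤ C) →
    ∫ ω, (R j (flipPat A k B) ω - G (placeK X k k ω)) * h (placeK X k k ω) ∂L.P = 0

/-- The centred overlap of the replica `l`. -/
def qval (X : ℕ → ℕ → Cube → ℝ) (k : ℕ) (j : Spc) (A : Pat j.1) (B : Finset (Fin j.1))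
    (G : Place k → ℝ) (l : ℕ) (ω : Cube) : ℝ :=
  R j (flipPat A l B) ω - G (placeK X k l ω)

/-- A grid cell of positions. -/
def cell (M : ℕ) {k : ℕ} (i : Fin k → ℕ) : Set (Fin k → ℝ) :=
  {p | ∀ a, ⌊p a * (M : ℝ)⌋₊ = i a}

/-- The two replicas after the first `k` are at distinct positions off the atoms in one cell. -/
def twoFree (L : Lim) (X : ℕ → ℕ → Cube → ℝ) (k M : ℕ) (i : Fin k → ℕ) : Set Cube :=
  {ω | placeK X k k ω ∉ atoms L X k ∧ placeK X k (k + 1) ω ∉ atoms L X k ∧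
    posK X k k ω ∈ cell M i ∧ posK X k (k + 1) ω ∈ cell M i ∧
    posK X k k ω ≠ posK X k (k + 1) ω}

end Vale.Agent.P168
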