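import Vale.Agent.P168.Induct.Bessel

/-!
P168, induction (helper27): the residual `Q = A - G` and the derivative identity for pairs of positions.
-/

namespace Vale.Agent.P168.Induct

open MeasureTheory ProbabilityTheory Set
open scoped ENNReal

noncomputable section

variable {k : ℕ}

/-- Truncation to `[-1, 1]`. -/
def clip (x : ℝ) : ℝ := max (-1) (min 1 x)

@[fun_prop]
theorem measurable_clip : Measurable clip := by unfold clip; fun_prop

theorem abs_clip_le (x : ℝ) : |clip x| ≤ 1 :=
  abs_le.2 ⟨le_max_left _ _, max_le (by norm_num) (min_le_left _ _)⟩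

theorem clip_of_abs_le {x : ℝ} (h : |x| ≤ 1) : clip x = x := by
  obtain ⟨h1, h2⟩ := abs_le.1 h
  rw [clip, min_eq_right h2, max_eq_right h1]

/-- Largest coordinate of a position. -/
def topP (p : Pos k) : ℝ := ⨆ s, p s

@[fun_prop]
theorem measurable_topP : Measurable (topP (k := k)) :=
  Measurable.iSup fun s => measurable_pi_apply s

theorem le_topP (p : Pos k) (s : Fin k) : p s ≤ topP p := le_ciSup (Finite.bddAbove_range p) s

theorem exists_topP (hk : 0 < k) (p : Pos k) : ∃ s, p s = topP p :=
  have : Nonempty (Fin k) := ⟨⟨0, hk⟩⟩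
  exists_eq_ciSup_of_finite

theorem measurableSet_forall {Ω ι : Type*} [MeasurableSpace Ω] [Countable ι] {p : ι → Ω → Prop}
    (h : ∀ i, MeasurableSet {z | p i z}) : MeasurableSet {z | ∀ i, p i z} := by
  rw [ofPred_forall]; exact .iInter h

theorem measurableSet_imp {Ω : Type*} [MeasurableSpace Ω] {c : Prop} {p : Ω → Prop}
    (h : MeasurableSet {z | p z}) : MeasurableSet {z | c → p z} := by
  by_cases hc : c <;> simp [hc, h]

theorem measurableSet_pos_eq (l l' : ℕ) : MeasurableSet {z : Arr | pos k l z = pos k l' z} := by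
  have : {z : Arr | pos k l z = pos k l' z} = {z | ∀ s : Fin k, z.1 l s = z.1 l' s} :=
    Set.ext fun z => funext_iff
  rw [this]
  exact measurableSet_forall fun s => measurableSet_eq_fun (measurable_X _ _) (measurable_X _ _)

theorem measurableSet_fiber :
    MeasurableSet {w : (Sh k × Pos k) × Pos k | w.2 = w.1.2} := by
  have : {w : (Sh k × Pos k) × Pos k | w.2 = w.1.2} = {w | ∀ s, w.2 s = w.1.2 s} :=
    Set.ext fun w => funext_iff
  rw [this]
  exact measurableSet_forall fun s => measurableSet_eq_fun (by fun_prop) (by fun_prop)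

namespace Hyp

variable (H : Hyp k)

/-- Mass of the conditional law of a position at a given position. -/
def mass (x : Sh k × Pos k) : ℝ≥0∞ := H.γ x.1 {x.2}

@[fun_prop]
theorem measurable_mass : Measurable H.mass := by
  have h := Kernel.measurable_kernel_prodMk_left (κ := H.γ.comap Prod.fst measurable_fst)
    (measurableSet_fiber (k := k))
  exact h

theorem exists_G : ∃ G : Sh k × Pos k → ℝ, Measurable G ∧ (∀ x, |G x| ≤ 1) ∧
    ∀ w : Sh k × Pos k → ℝ, Measurable w → (∃ c, ∀ x, |w x| ≤ c) →
      ∫ z, w (zed k k z) * (clip (z.2 k) - G (zed k k z)) ∂H.P = 0 := by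
  set a : Arr → ℝ := fun z => clip (z.2 k)
  have ha : Measurable a := by fun_prop
  have hai : Integrable a H.P :=
    Integrable.of_bound ha.aestronglyMeasurable 1 (ae_of_all _ fun z => abs_clip_le _)
  have hm := (measurable_zed k k).comap_le
  obtain ⟨g, hg, hge⟩ := (stronglyMeasurable_condExp (μ := H.P)
    (m := MeasurableSpace.comap (zed k k) inferInstance) (f := a)).exists_eq_measurable_comp
  refine ⟨fun x => clip (g x), measurable_clip.comp hg.measurable, fun x => abs_clip_le _,
    fun w hw ⟨c, hc⟩ => ?_⟩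
  have hgb : ∀ᵐ z ∂H.P, |(H.P[a|MeasurableSpace.comap (zed k k) inferInstance]) z| ≤ (1 : ℝ) :=
    ae_bdd_abs_condExp_of_ae_bdd_abs (ae_of_all _ fun z => abs_clip_le (z.2 k))
  have hwi : Integrable (fun z => w (zed k k z) * a z) H.P :=
    hai.bdd_mul (hw.comp (measurable_zed k k)).aestronglyMeasurable (ae_of_all _ fun z => hc _)
  have hwg : Integrable (fun z => w (zed k k z) * clip (g (zed k k z))) H.P := by
    refine Integrable.of_bound (Measurable.aestronglyMeasurable ((hw.comp (measurable_zed k k)).mul
      (measurable_clip.comp (hg.measurable.comp (measurable_zed k k))))) c (ae_of_all _ fun z => ?_)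
    rw [Real.norm_eq_abs, abs_mul]
    calc |w (zed k k z)| * |clip (g (zed k k z))| ≤ c * 1 :=
          mul_le_mul (hc _) (abs_clip_le _) (abs_nonneg _) ((abs_nonneg _).trans (hc (zed k k z)))
      _ = c := mul_one c
  have e := condExp_mul_of_stronglyMeasurable_left
    (m := MeasurableSpace.comap (zed k k) inferInstance) (μ := H.P)
    (f := fun z => w (zed k k z)) (g := a)
    (hw.stronglyMeasurable.comp_measurable (comap_measurable (zed k k))) hwi hai
  simp only [mul_sub]
  rw [integral_sub hwi hwg, sub_eq_zero, ← integral_condExp hm (f := fun z => w (zed k k z) * a z)]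
  refine integral_congr_ae (e.trans ?_)
  filter_upwards [hgb] with z hz
  show w (zed k k z) * _ = _
  rw [show g (zed k k z) = _ from (congrFun hge z).symm, clip_of_abs_le hz]

/-- The conditional expectation of `A k` given shape and position. -/
def G : Sh k × Pos k → ℝ := H.exists_G.choose

@[fun_prop]
theorem measurable_G : Measurable H.G := H.exists_G.choose_spec.1

theorem abs_G_le (x : Sh k × Pos k) : |H.G x| ≤ 1 := H.exists_G.choose_spec.2.1 x

/-- The residual. -/
def Q (z : Arr) : ℝ := clip (z.2 k) - H.G (zed k k z)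

@[fun_prop]
theorem measurable_Q : Measurable H.Q := by unfold Q; fun_prop

theorem abs_Q_le (z : Arr) : |H.Q z| ≤ 2 :=
  (abs_sub _ _).trans (by linarith [abs_clip_le (z.2 k), H.abs_G_le (zed k k z)])

theorem orth {w : Sh k × Pos k → ℝ} (hw : Measurable w) {c : ℝ} (hc : ∀ x, |w x| ≤ c) :
    ∫ z, w (zed k k z) * H.Q z ∂H.P = 0 := H.exists_G.choose_spec.2.2 w hw ⟨c, hc⟩

theorem Q_cut (z : Arr) : H.Q (cut (k + 1) z) = H.Q z := by
  rw [Q, Q, cut_A k.lt_succ_self, cut_zed k.le_succ k.lt_succ_self]

/-- The derivative identity on arbitrary sets of pairs of positions. -/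
theorem star_pairs {w : Sh k × Pos k → ℝ} (hw : Measurable w) {c : ℝ} (hc : ∀ x, |w x| ≤ c)
    {W : Set ((Sh k × Pos k) × Pos k)} (hW : MeasurableSet W) :
    ∫ z in (fun z => (zed k k z, pos k k z)) ⁻¹' W, w (zed k k z) * H.Q z * z.2 k ∂H.P =
      (k + 1 : ℝ) * ∫ z in (fun z => (zed k k z, pos k (k + 1) z)) ⁻¹' W,
        w (zed k k z) * H.Q z * z.2 (k + 1) ∂H.P := by
  have hc0 : ∀ x : Sh k × Pos k, 0 ≤ c := fun x => (abs_nonneg _).trans (hc x)
  have hint : ∀ l, Integrable (fun z => w (zed k k z) * H.Q z * z.2 l) H.P := fun l => by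
    refine Integrable.of_bound (by fun_prop) (c * 2) (H.bddA.mono fun z hz => ?_)
    rw [Real.norm_eq_abs, abs_mul, abs_mul]
    calc |w (zed k k z)| * |H.Q z| * |z.2 l| ≤ c * 2 * 1 := mul_le_mul
          (mul_le_mul (hc _) (H.abs_Q_le z) (abs_nonneg _) (hc0 (zed k k z))) (hz l) (abs_nonneg _)
          (mul_nonneg (hc0 (zed k k z)) zero_le_two)
      _ = c * 2 := mul_one _
  have hψ : ∀ l, Measurable fun z : Arr => (zed k k z, pos k l z) := fun l => by fun_prop
  have basic : ∀ U : Set (Sh k × Pos k), MeasurableSet U → ∀ T : Set (Pos k), MeasurableSet T →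
      ∫ z in (fun z => (zed k k z, pos k k z)) ⁻¹' (U ×ˢ T), w (zed k k z) * H.Q z * z.2 k ∂H.P =
        (k + 1 : ℝ) * ∫ z in (fun z => (zed k k z, pos k (k + 1) z)) ⁻¹' (U ×ˢ T),
          w (zed k k z) * H.Q z * z.2 (k + 1) ∂H.P := by
    intro U hU T hT
    have hb : ∀ x, |U.indicator w x| ≤ c := fun x => by
      by_cases h : x ∈ U <;> simp [h, hc x, hc0 x]
    have hwU := hw.indicator hU
    set u : Arr → ℝ := fun z => U.indicator w (zed k k z) * H.Q z with hu
    have h := H.star u (by fun_prop) ⟨c * 2, fun z => by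
        rw [hu, abs_mul]; exact mul_le_mul (hb _) (H.abs_Q_le z) (abs_nonneg _) (hc0 (zed k k z))⟩
      (fun v hv ⟨d, hd⟩ => by
        refine Eq.trans ?_ (H.orth (w := fun x => U.indicator w x * v x.1)
          (hwU.mul (hv.comp measurable_fst)) (c := c * d) fun x => by
            rw [abs_mul]; exact mul_le_mul (hb x) (hd _) (abs_nonneg _) (hc0 x))
        refine integral_congr_ae (ae_of_all _ fun z => ?_)
        simp only [hu, H.Q_cut, cut_zed k.le_succ k.lt_succ_self]
        rw [show (zed k k z).1 = xS k z from rfl]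
        ring)
      T hT
    have e : ∀ l z, u (cut (k + 1) z) * (T.indicator (fun _ => 1) (pos k l z) * z.2 l) =
        ((fun z => (zed k k z, pos k l z)) ⁻¹' (U ×ˢ T)).indicator
          (fun z => w (zed k k z) * H.Q z * z.2 l) z := fun l z => by
      simp only [hu, H.Q_cut, cut_zed k.le_succ k.lt_succ_self]
      by_cases h1 : zed k k z ∈ U <;> by_cases h2 : pos k l z ∈ T <;>
        simp [h1, h2, mul_assoc]
    simp only [e] at h
    rwa [integral_indicator (hψ _ (hU.prod hT)), integral_indicator (hψ _ (hU.prod hT))] at h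
  induction W, hW using MeasurableSpace.induction_on_inter generateFrom_prod.symm isPiSystem_prod with
  | empty => simp
  | basic t ht =>
      obtain ⟨U, hU, T, hT, rfl⟩ := ht
      exact basic U hU T hT
  | compl t ht ih =>
      have h := basic univ .univ univ .univ
      simp only [univ_prod_univ, preimage_univ, setIntegral_univ] at h
      simp only [preimage_compl]
      rw [setIntegral_compl (hψ _ ht) (hint _), setIntegral_compl (hψ _ ht) (hint _), ih, h,
        mul_sub]
  | iUnion f hd hf ih =>
      simp only [preimage_iUnion]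
      rw [integral_iUnion (fun i => hψ _ (hf i)) (fun i j hij => (hd hij).preimage _)
          (hint _).integrableOn,
        integral_iUnion (fun i => hψ _ (hf i)) (fun i j hij => (hd hij).preimage _)
          (hint _).integrableOn, ← tsum_mul_left]
      exact tsum_congr ih

end Hyp

end

end Vale.Agent.P168.Induct
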