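import Vale.Agent.P168.Sync.Sync
import Vale.Agent.P168.Induct.Basic
import Vale.Agent.P168.Induct.Star

/-!
P168, induction (helper27): the array of one species and one pattern inside a limit.
-/

namespace Vale.Agent.P168.Induct

open MeasureTheory Set
open scoped symmDiff

noncomputable section

variable {w : (Σ j : Spc, Finset (Fin j.1)) → ℝ}

theorem measurable_R (j : Spc) (A : Pat j.1) : Measurable (R j A) :=
  measurable_subtype_coe.comp (measurable_pi_apply _)

theorem abs_R_le (j : Spc) (A : Pat j.1) (ω : Cube) : |R j A ω| ≤ 1 :=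
  abs_le.2 (ω ⟨j, A⟩).2

theorem mem_single {k : ℕ} {l : ℕ} {B : Finset (Fin k)} {p : ℕ × Fin k} :
    p ∈ single l B ↔ p.1 = l ∧ p.2 ∈ B := by
  simp only [single, Finset.mem_product, Finset.mem_singleton]

theorem below_symmDiff {k n : ℕ} {A A' : Pat k} (h : Below n A) (h' : Below n A') :
    Below n (A ∆ A') := fun p hp => by
  rcases Finset.mem_symmDiff.1 hp with ⟨hp, -⟩ | ⟨hp, -⟩
  · exact h p hp
  · exact h' p hp

theorem below_single {k n l : ℕ} (hl : l < n) (B : Finset (Fin k)) : Below n (single l B) :=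
  fun p hp => (mem_single.1 hp).1 ▸ hl

theorem below_flip {k n l : ℕ} {A : Pat k} (hA : Below n A) (hl : l < n) (B : Finset (Fin k)) :
    Below n (flipPat A l B) := below_symmDiff hA (below_single hl B)

theorem below_mono {k m n : ℕ} (h : m ≤ n) {A : Pat k} (hA : Below m A) : Below n A :=
  fun p hp => (hA p hp).trans_le h

theorem pair_comm {k : ℕ} (a b : ℕ) (B : Finset (Fin k)) : pair a b B = pair b a B :=
  symmDiff_comm _ _

theorem comb_comm (a b : ℕ) (ω : Cube) : comb w a b ω = comb w b a ω := by
  simp only [comb, pair_comm a b]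

/-- A function of the first `n` replicas, with values anywhere. -/
def Fac {β : Type*} [MeasurableSpace β] (n : ℕ) (f : Cube → β) : Prop :=
  ∃ g, Measurable g ∧ f = g ∘ restr n

theorem Fac.comp {β γ : Type*} [MeasurableSpace β] [MeasurableSpace γ] {n : ℕ} {f : Cube → β}
    (hf : Fac n f) {φ : β → γ} (hφ : Measurable φ) : Fac n (φ ∘ f) := by
  obtain ⟨g, hg, rfl⟩ := hf
  exact ⟨φ ∘ g, hφ.comp hg, rfl⟩

theorem Fac.const {β : Type*} [MeasurableSpace β] (n : ℕ) (c : β) : Fac n fun _ => c :=
  ⟨fun _ => c, measurable_const, rfl⟩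

theorem Fac.pi {ι : Type*} {β : ι → Type*} [∀ i, MeasurableSpace (β i)] {n : ℕ}
    {f : Cube → ∀ i, β i} (hf : ∀ i, Fac n fun ω => f ω i) : Fac n f := by
  choose g hg he using hf
  exact ⟨fun r i => g i r, measurable_pi_lambda _ hg,
    funext fun ω => funext fun i => congrFun (he i) ω⟩

theorem Fac.prodMk {β γ : Type*} [MeasurableSpace β] [MeasurableSpace γ] {n : ℕ} {f : Cube → β}
    {f' : Cube → γ} (hf : Fac n f) (hf' : Fac n f') : Fac n fun ω => (f ω, f' ω) := by
  obtain ⟨g, hg, rfl⟩ := hf
  obtain ⟨g', hg', rfl⟩ := hf'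
  exact ⟨fun r => (g r, g' r), hg.prodMk hg', rfl⟩

theorem measurable_restr (n : ℕ) : Measurable (restr n) :=
  measurable_pi_lambda _ fun _ => measurable_pi_apply _

theorem Fac.measurable {β : Type*} [MeasurableSpace β] {n : ℕ} {f : Cube → β} (hf : Fac n f) :
    Measurable f := by
  obtain ⟨g, hg, rfl⟩ := hf
  exact hg.comp (measurable_restr n)

theorem fac_R {n : ℕ} (j : Spc) {A : Pat j.1} (hA : Below n A) : Fac n (R j A) :=
  ⟨fun r => (r ⟨⟨j, A⟩, hA⟩ : ℝ), measurable_subtype_coe.comp (measurable_pi_apply _), rfl⟩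

/-- The array: the tree, and the overlaps of one pattern flipped at one replica. -/
def arr (w : (Σ j : Spc, Finset (Fin j.1)) → ℝ) (j : Spc) (A : Pat j.1) (B : Finset (Fin j.1))
    (ω : Cube) : Arr :=
  (fun a b => if a = b then 1 else comb w a b ω, fun l => R j (flipPat A l B) ω)

variable {L : Lim} {j : Spc} {A : Pat j.1} {B : Finset (Fin j.1)}

theorem measurable_comb (hX : GGTree L (comb w)) (a b : ℕ) : Measurable (comb w a b) :=
  Fac.measurable (n := max a b + 1)
    (hX.obs a b (max a b + 1) (by omega) (by omega)).fac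

theorem measurable_arr (hX : GGTree L (comb w)) : Measurable (arr w j A B) := by
  refine Measurable.prodMk (measurable_pi_lambda _ fun a => measurable_pi_lambda _ fun b => ?_)
    (measurable_pi_lambda _ fun l => measurable_R _ _)
  by_cases hab : a = b
  · simp only [hab, if_pos]; exact measurable_const
  · simp only [if_neg hab]; exact measurable_comb hX a b

theorem fac_cut_arr (hX : GGTree L (comb w)) {k n : ℕ} (hA : Below k A) (hkn : k ≤ n) :
    Fac n fun ω => cut n (arr w j A B ω) := by
  refine Fac.prodMk (Fac.pi fun a => Fac.pi fun b => ?_) (Fac.pi fun l => ?_)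
  · by_cases h : a < n ∧ b < n
    · simp only [if_pos h]
      by_cases hab : a = b
      · simp only [arr, if_pos hab]; exact Fac.const _ _
      · simp only [arr, if_neg hab]; exact (hX.obs a b n h.1 h.2).fac
    · simp only [if_neg h]; exact Fac.const _ _
  · by_cases h : l < n
    · simp only [if_pos h]; exact fac_R j (below_flip (below_mono hkn hA) h B)
    · simp only [if_neg h]; exact Fac.const _ _

theorem xS_arr (k : ℕ) (ω : Cube) : xS k (arr w j A B ω) = matS (comb w) k ω := by
  funext a b
  simp only [xS, arr, matS, Fin.val_inj]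

theorem pos_arr {k l : ℕ} (hl : k ≤ l) (ω : Cube) :
    pos k l (arr w j A B ω) = posK (comb w) k l ω := by
  funext s
  have hs := s.2
  simp only [pos, arr, posK, if_neg (show l ≠ (s : ℕ) by omega)]

theorem zed_arr {k l : ℕ} (hl : k ≤ l) (ω : Cube) :
    zed k l (arr w j A B ω) = placeK (comb w) k l ω :=
  Prod.ext (xS_arr (j := j) (A := A) (B := B) k ω) (pos_arr (j := j) (A := A) (B := B) hl ω)

end

end Vale.Agent.P168.Induct
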