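import Vale.Agent.P168.Induct.Star

/-!
P168, induction (helper27): at an atom of the law of positions the residual vanishes.
-/

namespace Vale.Agent.P168.Induct

open MeasureTheory ProbabilityTheory Set
open scoped ENNReal

noncomputable section

variable {k : ℕ}

theorem swap_range {i j l m : ℕ} (hi : k ≤ i) (hi' : i < k + m) (hj : k ≤ j) (hj' : j < k + m) :
    (k ≤ Equiv.swap i j l ∧ Equiv.swap i j l < k + m) ↔ (k ≤ l ∧ l < k + m) := by
  rcases eq_or_ne l i with rfl | h1
  · simp [hi, hi', hj, hj']
  rcases eq_or_ne l j with rfl | h2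
  · simp [hi, hi', hj, hj']
  · rw [Equiv.swap_apply_of_ne_of_ne h1 h2]

theorem perm_swap_X (i j a b : ℕ) (z : Arr) :
    (perm (Equiv.swap i j) z).1 a b = z.1 (Equiv.swap i j a) (Equiv.swap i j b) := rfl

theorem perm_swap_A (i j a : ℕ) (z : Arr) :
    (perm (Equiv.swap i j) z).2 a = z.2 (Equiv.swap i j a) := rfl

theorem perm_perm_swap (i j : ℕ) (z : Arr) :
    perm (Equiv.swap i j) (perm (Equiv.swap i j) z) = z := by
  refine Prod.ext (funext fun a => funext fun b => ?_) (funext fun a => ?_) <;>
    simp [perm, Equiv.swap_apply_self]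

namespace Hyp

variable (H : Hyp k)

/-- A property holding almost surely holds at relabelled arrays. -/
theorem ae_perm {i j : ℕ} (hi : k ≤ i) (hj : k ≤ j) {p : Arr → Prop} (hp : ∀ᵐ z ∂H.P, p z) :
    ∀ᵐ z ∂H.P, p (perm (Equiv.swap i j) z) :=
  (Measure.QuasiMeasurePreserving.mk (measurable_perm _)
    (by rw [H.exch i j hi hj])).ae hp

/-- `m` replicas at one atom with mutual overlaps at its top. -/
def atomKids (m : ℕ) : Set Arr :=
  {z | H.mass (zed k k z) ≠ 0 ∧ (∀ l : ℕ, k ≤ l ∧ l < k + m → pos k l z = pos k k z) ∧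
    ∀ a b : ℕ, (k ≤ a ∧ a < k + m) → (k ≤ b ∧ b < k + m) → a ≠ b → z.1 a b = topP (pos k k z)}

/-- Probability of one more replica in `atomKids`. -/
def atomQ (m : ℕ) (x : Sh k × Pos k) : ℝ≥0∞ :=
  ((k : ℝ≥0∞) * H.mass x + (m : ℝ≥0∞) * H.ν (Iic (topP x.2))) / ((k + m : ℕ) : ℝ≥0∞)

theorem measurableSet_atomKids (m : ℕ) : MeasurableSet (H.atomKids m) := by
  unfold atomKids
  refine ((measurableSet_eq_fun (by fun_prop) measurable_const).compl).inter
    ((measurableSet_forall fun l => measurableSet_imp (measurableSet_pos_eq l k)).inter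
      (measurableSet_forall fun a => measurableSet_forall fun b => measurableSet_imp
        (measurableSet_imp (measurableSet_imp (measurableSet_eq_fun (by fun_prop) (by fun_prop))))))

theorem mem_atomKids_cut {m n : ℕ} (hm : 1 ≤ m) (hn : k + m ≤ n) (z : Arr) :
    cut n z ∈ H.atomKids m ↔ z ∈ H.atomKids m := by
  unfold atomKids
  simp only [mem_ofPred_eq, cut_zed (show k ≤ n by omega) (show k < n by omega),
    cut_pos (show k ≤ n by omega) (show k < n by omega)]
  refine and_congr_right fun _ => and_congr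
    (forall_congr' fun l => imp_congr_right fun hl => ?_)
    (forall_congr' fun a => forall_congr' fun b => imp_congr_right fun ha => imp_congr_right fun hb =>
      imp_congr_right fun _ => ?_)
  · rw [cut_pos (show k ≤ n by omega) (show l < n by omega)]
  · rw [cut_X (show a < n by omega) (show b < n by omega)]

theorem measurable_atomQ (m : ℕ) : Measurable (H.atomQ m) := by
  have h : Measurable fun x : Sh k × Pos k => H.ν (Iic (topP x.2)) :=
    measurable_measure_prodMk_left (s := {p : (Sh k × Pos k) × ℝ | p.2 ≤ topP p.1.2})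
      (measurableSet_le (by fun_prop) (by fun_prop))
  unfold atomQ
  fun_prop

theorem atomQ_ne_top (m : ℕ) (x : Sh k × Pos k) : H.atomQ m x ≠ ∞ := by
  have := H.kpos
  refine ENNReal.div_ne_top (ENNReal.add_ne_top.2 ⟨?_, ?_⟩) (Nat.cast_ne_zero.2 (by omega))
  · exact ENNReal.mul_ne_top (ENNReal.natCast_ne_top _) (measure_ne_top _ _)
  · exact ENNReal.mul_ne_top (ENNReal.natCast_ne_top _) (measure_ne_top _ _)

theorem atomQ_ne_zero (m : ℕ) {x : Sh k × Pos k} (hx : H.mass x ≠ 0) : H.atomQ m x ≠ 0 := by
  have := H.kpos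
  simp [atomQ, ENNReal.div_eq_zero_iff, hx]
  omega

/-- Ultrametricity at a common position: overlaps are at least its top. -/
theorem top_le_X {z : Arr} (hu : ∀ i j l : ℕ, i ≠ j → j ≠ l → i ≠ l → min (z.1 i l) (z.1 j l) ≤ z.1 i j)
    {a b : ℕ} (ha : k ≤ a) (hb : k ≤ b) (hab : a ≠ b) (hk : 0 < k)
    (hp : pos k a z = pos k b z) : topP (pos k b z) ≤ z.1 a b := by
  obtain ⟨s, hs⟩ := exists_topP hk (pos k b z)
  have h := hu a b s hab (by omega) (by omega)
  rw [show z.1 a s = topP (pos k b z) by rw [← hs, ← hp]; rfl,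
    show z.1 b s = topP (pos k b z) from hs, min_self] at h
  exact h

/-- An overlap above the top of a position forces the position. -/
theorem pos_eq_of_top_lt {z : Arr}
    (hu : ∀ i j l : ℕ, i ≠ j → j ≠ l → i ≠ l → min (z.1 i l) (z.1 j l) ≤ z.1 i j)
    (hsy : ∀ i j : ℕ, z.1 i j = z.1 j i)
    {a b : ℕ} (ha : k ≤ a) (hb : k ≤ b) (hab : a ≠ b)
    (h : topP (pos k b z) < z.1 a b) : pos k a z = pos k b z := by
  funext s
  have hs := le_topP (pos k b z) s
  show z.1 a s = z.1 b s
  have h1 := hu a s b (by omega) (by omega) hab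
  rw [hsy s b] at h1
  have h2 := hu b s a (by omega) (by omega) hab.symm
  rw [hsy b a, hsy s a] at h2
  have hlt : z.1 b s < z.1 a b := lt_of_le_of_lt hs h
  refine le_antisymm ?_ ?_
  · rcases le_total (z.1 a b) (z.1 a s) with h3 | h3
    · rw [min_eq_left h3] at h2; linarith
    · rw [min_eq_right h3] at h2; exact h2
  · rw [min_eq_right hlt.le] at h1; exact h1

/-- The step of `atomKids`. -/
theorem atomKids_step {m : ℕ} (hm : 1 ≤ m) {B : Set Arr} (hB : MeasurableSet B) :
    H.P (cut (k + m) ⁻¹' B ∩ H.atomKids (m + 1)) =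
      ∫⁻ z in cut (k + m) ⁻¹' B ∩ H.atomKids m, H.atomQ m (zed k k z) ∂H.P := by
  set n := k + m with hn
  have hkn : k ≤ n := by omega
  have hk' : k < n := by omega
  have hS : cut n ⁻¹' B ∩ H.atomKids m = cut n ⁻¹' (B ∩ H.atomKids m) := by
    ext z
    simp [H.mem_atomKids_cut hm (n := n) (by omega)]
  have hS' : MeasurableSet (B ∩ H.atomKids m) := hB.inter (H.measurableSet_atomKids m)
  rw [hS]
  set S := cut n ⁻¹' (B ∩ H.atomKids m) with hSdef
  have hSm : MeasurableSet S := measurable_cut n hS'
  set P1 : Set Arr := S ∩ {z | pos k n z = pos k k z}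
  set P2 : ℕ → Set Arr := fun i => S ∩ {z | topP (pos k k z) < z.1 n i}
  set E : Set Arr := cut n ⁻¹' B ∩ H.atomKids (m + 1) with hE
  have hP1m : MeasurableSet P1 := hSm.inter (measurableSet_pos_eq _ _)
  have hP2m : ∀ i, MeasurableSet (P2 i) := fun i =>
    hSm.inter (measurableSet_lt (by fun_prop) (by fun_prop))
  have hEm : MeasurableSet E := (measurable_cut n hB).inter (H.measurableSet_atomKids _)
  have hcutp : ∀ z, pos k k (cut n z) = pos k k z := cut_pos hkn hk'
  -- the split of the position event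
  have hsplit : H.P P1 = H.P E + ∑ i ∈ Finset.Ico k n, H.P (P2 i) := by
    simp only [← lintegral_indicator_one hP1m, ← lintegral_indicator_one hEm,
      ← fun i => lintegral_indicator_one (μ := H.P) (hP2m i)]
    rw [← lintegral_finsetSum _ fun i _ => measurable_one.indicator (hP2m i),
      ← lintegral_add_left (measurable_one.indicator hEm)]
    refine lintegral_congr_ae ?_
    filter_upwards [H.ultra, H.symm] with z hu hsy
    have hmemS : z ∈ S ↔ (cut n z ∈ B ∧ z ∈ H.atomKids m) := by
      simp [hSdef, H.mem_atomKids_cut hm (n := n) (by omega)]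
    by_cases hzS : z ∈ S
    · obtain ⟨hzB, hT, hpos, hX⟩ := hmemS.1 hzS
      by_cases hp : pos k n z = pos k k z
      · rw [indicator_of_mem (show z ∈ P1 from ⟨hzS, hp⟩)]
        by_cases hall : ∀ i ∈ Finset.Ico k n, z.1 n i ≤ topP (pos k k z)
        · have hzE : z ∈ E := by
            refine ⟨hzB, hT, fun l hl => ?_, fun a b ha hb hab => ?_⟩
            · rcases Nat.lt_or_ge l n with h | h
              · exact hpos l ⟨hl.1, by omega⟩
              · rwa [show l = n by omega]
            · have key : ∀ a, k ≤ a → a < n → z.1 n a = topP (pos k k z) := fun a ha ha' => by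
                refine le_antisymm (hall a (Finset.mem_Ico.2 ⟨ha, ha'⟩)) ?_
                have e := hpos a ⟨ha, ha'⟩
                rw [← e]
                exact top_le_X hu (by omega) ha (by omega) H.kpos (hp.trans e.symm)
              rcases Nat.lt_or_ge a n with h | h <;> rcases Nat.lt_or_ge b n with h' | h'
              · exact hX a b ⟨ha.1, h⟩ ⟨hb.1, h'⟩ hab
              · rw [show b = n by omega, hsy a n]; exact key a ha.1 h
              · rw [show a = n by omega]; exact key b hb.1 h'
              · omega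
          rw [indicator_of_mem hzE, Finset.sum_eq_zero fun i hi => indicator_of_notMem
            (fun h => not_lt.2 (hall i hi) h.2) _, add_zero]
        · push Not at hall
          obtain ⟨i₀, hi₀, hlt⟩ := hall
          rw [Finset.mem_Ico] at hi₀
          have hzE : z ∉ E := fun h => by
            have h2 := h.2.2.2 n i₀ ⟨by omega, by omega⟩ ⟨hi₀.1, by omega⟩ (by omega)
            linarith
          rw [indicator_of_notMem hzE, zero_add, Finset.sum_eq_single i₀ (fun i hi hne =>
              indicator_of_notMem (fun h => ?_) _) (fun h => absurd (Finset.mem_Ico.2 hi₀) h),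
            indicator_of_mem (show z ∈ P2 i₀ from ⟨hzS, hlt⟩)]
          rw [Finset.mem_Ico] at hi
          have h1 := hu i i₀ n hne (by omega) (by omega)
          rw [hsy i n, hsy i₀ n, hX i i₀ hi ⟨hi₀.1, hi₀.2⟩ hne] at h1
          rcases min_le_iff.1 h1 with h2 | h2
          · exact absurd h.2 (not_lt.2 h2)
          · exact absurd hlt (not_lt.2 h2)
      · rw [indicator_of_notMem (fun h => hp h.2), indicator_of_notMem (s := E) (fun h =>
            hp (h.2.2.1 n ⟨by omega, by omega⟩)), zero_add, Finset.sum_eq_zero]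
        intro i hi
        rw [Finset.mem_Ico] at hi
        refine indicator_of_notMem (fun h => hp ?_) _
        have e := hpos i hi
        rw [← e]
        exact pos_eq_of_top_lt hu hsy (by omega) hi.1 (by omega) (by rw [e]; exact h.2)
    · rw [indicator_of_notMem (fun h => hzS h.1), indicator_of_notMem (s := E) (fun h => hzS ?_),
        zero_add, Finset.sum_eq_zero fun i _ => indicator_of_notMem (fun h => hzS h.1) _]
      refine hmemS.2 ⟨h.1, h.2.1, fun l hl => h.2.2.1 l ⟨hl.1, by omega⟩,
        fun a b ha hb hab => h.2.2.2 a b ⟨ha.1, by omega⟩ ⟨hb.1, by omega⟩ hab⟩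
  -- the identity for positions
  have hP1 : (n : ℝ≥0∞) * H.P P1 =
      (m : ℝ≥0∞) * H.P S + (k : ℝ≥0∞) * ∫⁻ z in S, H.mass (zed k k z) ∂H.P := by
    set Φ : Arr × Pos k → ℝ≥0∞ :=
      ({w : Arr × Pos k | w.1 ∈ B ∩ H.atomKids m} ∩ {w | w.2 = pos k k w.1}).indicator 1 with hΦ
    have hwm : MeasurableSet {w : Arr × Pos k | w.2 = pos k k w.1} := by
      have : {w : Arr × Pos k | w.2 = pos k k w.1} = {w | ∀ s, w.2 s = pos k k w.1 s} :=
        Set.ext fun w => funext_iff
      rw [this]
      exact measurableSet_forall fun s => measurableSet_eq_fun (by fun_prop) (by fun_prop)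
    have hΦm : Measurable Φ := measurable_one.indicator ((measurable_fst hS').inter hwm)
    have e : ∀ z x, Φ (cut n z, x) = S.indicator (1 : Arr → ℝ≥0∞) z * ({pos k k z} : Set (Pos k)).indicator 1 x := by
      intro z x
      by_cases h1 : z ∈ S <;> by_cases h2 : x = pos k k z <;>
        simp_all [hΦ, hSdef, indicator]
    have h := H.lint_sgg n hkn hΦm
    simp only [e] at h
    have e1 : ∀ l, ∫⁻ z, S.indicator (1 : Arr → ℝ≥0∞) z * ({pos k k z} : Set (Pos k)).indicator 1 (pos k l z) ∂H.P
        = H.P (S ∩ {z | pos k l z = pos k k z}) := fun l => by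
      rw [← lintegral_indicator_one (hSm.inter (measurableSet_pos_eq _ _))]
      refine lintegral_congr fun z => ?_
      by_cases h1 : z ∈ S <;> by_cases h2 : pos k l z = pos k k z <;> simp [h1, h2, indicator]
    have e2 : ∫⁻ z, ∫⁻ x, S.indicator (1 : Arr → ℝ≥0∞) z * ({pos k k z} : Set (Pos k)).indicator 1 x
        ∂H.γ (xS k z) ∂H.P = ∫⁻ z in S, H.mass (zed k k z) ∂H.P := by
      rw [← lintegral_indicator hSm]
      refine lintegral_congr fun z => ?_
      by_cases h1 : z ∈ S
      · simp only [indicator_of_mem h1, Pi.one_apply, one_mul,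
          lintegral_indicator_one (measurableSet_singleton _)]
        rfl
      · simp [indicator_of_notMem h1]
    rw [e1, e2, Finset.sum_congr rfl fun l _ => e1 l] at h
    refine h.trans ?_
    congr 1
    rw [Finset.sum_congr rfl (g := fun _ => H.P S) fun l hl => ?_, Finset.sum_const, Nat.card_Ico,
      nsmul_eq_mul, show n - k = m by omega]
    rw [Finset.mem_Ico] at hl
    congr 1
    refine inter_eq_left.2 fun z hz => ?_
    exact ((H.mem_atomKids_cut hm (n := n) (by omega) z).1 hz.2).2.1 l hl
  -- the identity for one overlap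
  have hP2 : ∀ i ∈ Finset.Ico k n, (n : ℝ≥0∞) * H.P (P2 i) =
      ∫⁻ z in S, H.ν (Ioi (topP (pos k k z))) ∂H.P := by
    intro i hi
    rw [Finset.mem_Ico] at hi
    set Φ : Arr × ℝ → ℝ≥0∞ :=
      ({w : Arr × ℝ | w.1 ∈ B ∩ H.atomKids m} ∩ {w | topP (pos k k w.1) < w.2}).indicator 1 with hΦ
    have hΦm : Measurable Φ := measurable_one.indicator
      ((measurable_fst hS').inter (measurableSet_lt (by fun_prop) (by fun_prop)))
    have e : ∀ z x, Φ (cut n z, x) = S.indicator (1 : Arr → ℝ≥0∞) z * (Ioi (topP (pos k k z))).indicator 1 x := by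
      intro z x
      by_cases h1 : z ∈ S <;> by_cases h2 : topP (pos k k z) < x <;>
        simp_all [hΦ, hSdef, indicator]
    have h := H.lint_gg1 n hkn i (by omega) hΦm
    simp only [e] at h
    have e1 : ∀ a b, ∫⁻ z, S.indicator (1 : Arr → ℝ≥0∞) z * (Ioi (topP (pos k k z))).indicator 1 (z.1 a b) ∂H.P
        = H.P (S ∩ {z | topP (pos k k z) < z.1 a b}) := fun a b => by
      rw [← lintegral_indicator_one (hSm.inter (measurableSet_lt (by fun_prop) (by fun_prop)))]
      refine lintegral_congr fun z => ?_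
      by_cases h1 : z ∈ S <;> by_cases h2 : topP (pos k k z) < z.1 a b <;> simp [h1, h2, indicator]
    have e2 : ∫⁻ z, ∫⁻ x, S.indicator (1 : Arr → ℝ≥0∞) z * (Ioi (topP (pos k k z))).indicator 1 x ∂H.ν ∂H.P
        = ∫⁻ z in S, H.ν (Ioi (topP (pos k k z))) ∂H.P := by
      rw [← lintegral_indicator hSm]
      refine lintegral_congr fun z => ?_
      by_cases h1 : z ∈ S
      · simp only [indicator_of_mem h1, Pi.one_apply, one_mul, lintegral_indicator_one measurableSet_Ioi]
      · simp [indicator_of_notMem h1]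
    rw [e1, e2, Finset.sum_eq_zero fun l' hl' => ?_, add_zero] at h
    · exact h
    · rw [e1, measure_eq_zero_iff_ae_notMem]
      refine ae_of_all _ fun z hz => ?_
      obtain ⟨hne, hl'n⟩ := Finset.mem_erase.1 hl'
      rw [Finset.mem_range] at hl'n
      obtain ⟨-, hpos, hX⟩ := (H.mem_atomKids_cut hm (n := n) (by omega) z).1 hz.1.2
      have h2 : topP (pos k k z) < z.1 i l' := hz.2
      rcases Nat.lt_or_ge l' k with hlt | hge
      · have := le_topP (pos k k z) ⟨l', hlt⟩
        rw [← hpos i hi] at this h2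
        exact absurd h2 (not_lt.2 this)
      · linarith [hX i l' hi ⟨hge, hl'n⟩ hne.symm]
  -- conclusion
  have hn0 : (n : ℝ≥0∞) ≠ 0 := Nat.cast_ne_zero.2 (by omega)
  have hν : ∀ z : Arr, H.ν (Iic (topP (pos k k z))) + H.ν (Ioi (topP (pos k k z))) = 1 := fun z => by
    rw [← measure_union (Iic_disjoint_Ioi le_rfl) measurableSet_Ioi, Iic_union_Ioi, measure_univ]
  have htot := hP1
  rw [hsplit, mul_add, Finset.mul_sum, Finset.sum_congr rfl hP2, Finset.sum_const, Nat.card_Ico,
    nsmul_eq_mul, show n - k = m by omega] at htot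
  have hνm : Measurable fun z : Arr => H.ν (Iic (topP (pos k k z))) :=
    measurable_measure_prodMk_left (s := {p : Arr × ℝ | p.2 ≤ topP (pos k k p.1)})
      (measurableSet_le (by fun_prop) (by fun_prop))
  have hm1 : Measurable fun z : Arr => H.mass (zed k k z) := by fun_prop
  have hPS : H.P S = ∫⁻ z in S, H.ν (Iic (topP (pos k k z))) ∂H.P
      + ∫⁻ z in S, H.ν (Ioi (topP (pos k k z))) ∂H.P := by
    rw [← lintegral_add_left hνm]
    simp [hν]
  have hfin : (m : ℝ≥0∞) * ∫⁻ z in S, H.ν (Ioi (topP (pos k k z))) ∂H.P ≠ ∞ := by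
    refine ENNReal.mul_ne_top (ENNReal.natCast_ne_top _) (ne_top_of_le_ne_top ENNReal.one_ne_top ?_)
    refine (lintegral_mono fun z => prob_le_one).trans ?_
    simp [prob_le_one]
  have heq : (n : ℝ≥0∞) * H.P E = ∫⁻ z in S,
      ((k : ℝ≥0∞) * H.mass (zed k k z) + (m : ℝ≥0∞) * H.ν (Iic (topP (pos k k z)))) ∂H.P := by
    rw [lintegral_add_left (hm1.const_mul _), lintegral_const_mul _ hm1, lintegral_const_mul _ hνm]
    rw [hPS, mul_add] at htot
    refine (ENNReal.add_left_inj hfin).1 (htot.trans ?_)
    ring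
  simp only [atomQ, show (zed k k _).2 = pos k k _ from rfl, div_eq_mul_inv]
  rw [lintegral_mul_const _ ((hm1.const_mul _).fun_add (hνm.const_mul _)), ← heq, hn, ← div_eq_mul_inv,
    mul_div_assoc]
  exact (ENNReal.mul_div_cancel hn0 (ENNReal.natCast_ne_top _)).symm

theorem atom_children : H.Children (zed k k) H.atomKids H.atomQ
    (fun z => H.L (topP (pos k k z))) 0 where
  key_meas := measurable_zed k k
  key_cut n z hn := cut_zed hn.le hn z
  D_meas := H.measurableSet_atomKids
  D_perm m i j z hi hi' hj hj' := by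
    set σ := Equiv.swap i j with hσ
    have hr := fun l => swap_range (l := l) hi hi' hj hj'
    have hp : ∀ l, pos k l (perm σ z) = pos k (σ l) z := fun l => perm_pos hi hj l z
    have hσk : k ≤ σ k ∧ σ k < k + m := (hr k).2 ⟨le_rfl, by omega⟩
    have hkey : z ∈ H.atomKids m → zed k k (perm σ z) = zed k k z := fun hz => by
      refine Prod.ext (perm_xS hi hj z) ?_
      show pos k k (perm σ z) = _
      rw [hp, hz.2.1 _ hσk]; rfl
    refine ⟨⟨fun h => ?_, fun h => ?_⟩, hkey⟩
    · obtain ⟨h1, h2, h3⟩ := h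
      have e0 : ∀ l, k ≤ l ∧ l < k + m → pos k l z = pos k k (perm σ z) := fun l hl => by
        have := h2 (σ l) ((hr l).2 hl)
        rwa [hp (σ l), hσ, Equiv.swap_apply_self] at this
      have e1 := e0 k ⟨le_rfl, by omega⟩
      refine ⟨?_, fun l hl => (e0 l hl).trans e1.symm, fun a b ha hb hab => ?_⟩
      · rwa [show zed k k (perm σ z) = zed k k z from Prod.ext (perm_xS hi hj z) e1.symm] at h1
      · have := h3 (σ a) (σ b) ((hr a).2 ha) ((hr b).2 hb) (σ.injective.ne hab)
        rw [← e1, perm_swap_X, hσ, Equiv.swap_apply_self, Equiv.swap_apply_self] at this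
        exact this
    · have e := hkey h
      obtain ⟨h1, h2, h3⟩ := h
      have e1 : pos k k (perm σ z) = pos k k z := congrArg Prod.snd e
      refine ⟨by rwa [e], fun l hl => ?_, fun a b ha hb hab => ?_⟩
      · rw [e1, hp l]; exact h2 _ ((hr l).2 hl)
      · rw [e1]; exact h3 _ _ ((hr a).2 ha) ((hr b).2 hb) (σ.injective.ne hab)
  q_meas := H.measurable_atomQ
  q_top := H.atomQ_ne_top
  q_ne m _ := ae_of_all _ fun z hz => H.atomQ_ne_zero m hz.1
  step m hm B hB := H.atomKids_step (by omega) hB
  window := ae_of_all _ fun z m hz => ⟨H.bddL _, fun a ha b hb hab => by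
    rw [hz.2.2 a b (Finset.mem_Ico.1 ha) (Finset.mem_Ico.1 hb) hab, sub_self, abs_zero]⟩

theorem eq_of_atomKids : ∀ᵐ z ∂H.P, z ∈ H.atomKids 2 → z.2 k = z.2 (k + 1) := by
  have h := H.atom_children.sq_sub_le le_rfl (h := fun _ => 1) measurable_const ENNReal.one_ne_top
    (fun _ => le_rfl)
  simp only [mul_zero, ENNReal.ofReal_zero, zero_mul, one_mul, nonpos_iff_eq_zero] at h
  rw [lintegral_eq_zero_iff (by fun_prop), Filter.EventuallyEq,
    ae_restrict_iff' (H.measurableSet_atomKids 2)] at h
  filter_upwards [h] with z hz hzD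
  have := hz hzD
  simp only [Pi.zero_apply, ENNReal.ofReal_eq_zero] at this
  exact sub_eq_zero.1 ((sq_nonpos_iff _).1 this)

/-- Two replicas at one atom have equal overlaps. -/
theorem eq_of_same_atom : ∀ᵐ z ∂H.P, H.mass (zed k k z) ≠ 0 → pos k (k + 1) z = pos k k z →
    z.2 k = z.2 (k + 1) := by
  set E : Set Arr := {z | H.mass (zed k k z) ≠ 0 ∧ pos k (k + 1) z = pos k k z ∧
    topP (pos k k z) < z.1 k (k + 1) ∧ z.2 k ≠ z.2 (k + 1)}
  suffices hE : H.P E = 0 by
    filter_upwards [measure_eq_zero_iff_ae_notMem.1 hE, H.eq_of_atomKids, H.ultra, H.symm]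
      with z hz h2 hu hsy hT hp
    by_contra hne
    rcases lt_or_ge (topP (pos k k z)) (z.1 k (k + 1)) with h | h
    · exact hz ⟨hT, hp, h, hne⟩
    · refine hne (h2 ⟨hT, fun l hl => ?_, fun a b ha hb hab => ?_⟩)
      · rcases (by omega : l = k ∨ l = k + 1) with rfl | rfl
        · rfl
        · exact hp
      · have e : z.1 k (k + 1) = topP (pos k k z) := by
          refine le_antisymm h ?_
          rw [← hp]
          exact top_le_X hu le_rfl k.le_succ (by omega) H.kpos hp.symm
        rcases (by omega : a = k ∧ b = k + 1 ∨ a = k + 1 ∧ b = k) with ⟨rfl, rfl⟩ | ⟨rfl, rfl⟩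
        · exact e
        · rw [hsy]; exact e
  have hEm : MeasurableSet E := ((measurableSet_eq_fun (by fun_prop) measurable_const).compl).inter
    ((measurableSet_pos_eq (k + 1) k).inter
      ((measurableSet_lt (measurable_topP.comp (measurable_pos k k)) (measurable_X k (k + 1))).inter
        (measurableSet_eq_fun (measurable_A k) (measurable_A (k + 1))).compl))
  have hcut : cut (k + 2) ⁻¹' E = E := by
    ext z
    simp only [E, mem_preimage, mem_ofPred_eq, cut_zed (show k ≤ k + 2 by omega) (show k < k + 2 by omega),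
      cut_pos (show k ≤ k + 2 by omega) (show k + 1 < k + 2 by omega),
      cut_pos (show k ≤ k + 2 by omega) (show k < k + 2 by omega),
      cut_X (show k < k + 2 by omega) (show k + 1 < k + 2 by omega),
      cut_A (show k < k + 2 by omega), cut_A (show k + 1 < k + 2 by omega)]
  set E1 : Set Arr := E ∩ {z | pos k (k + 2) z = pos k k z}
  set E2 : Set Arr := E ∩ {z | topP (pos k k z) < z.1 (k + 2) k}
  -- a third replica is at the same position only above the top
  have hsub : H.P E1 ≤ H.P E2 := by
    refine measure_mono_ae ?_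
    filter_upwards [H.eq_of_atomKids, H.ae_perm (i := k + 1) (j := k + 2) (by omega) (by omega)
      H.eq_of_atomKids, H.ae_perm (i := k) (j := k + 2) (by omega) (by omega)
      (H.ae_perm (i := k) (j := k + 1) (by omega) (by omega) H.eq_of_atomKids), H.ultra, H.symm]
      with z _h2 hbc hac hu hsy
    intro hz
    obtain ⟨⟨hT, hp, hab, hne⟩, hc⟩ := hz
    refine ⟨⟨hT, hp, hab, hne⟩, ?_⟩
    by_contra hlt
    have hlt : z.1 (k + 2) k ≤ topP (pos k k z) := le_of_not_gt hlt
    have hca : z.1 (k + 2) k = topP (pos k k z) :=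
      le_antisymm hlt (top_le_X hu (by omega) le_rfl (by omega) H.kpos hc)
    have hcb : z.1 (k + 2) (k + 1) = topP (pos k k z) := by
      refine le_antisymm ?_ ?_
      · by_contra h
        have h1 := hu (k + 2) k (k + 1) (by omega) (by omega) (by omega)
        rw [hca] at h1
        rcases min_le_iff.1 h1 with h2 | h2
        · exact h h2
        · exact absurd hab (not_lt.2 h2)
      · rw [← hp]
        exact top_le_X hu (by omega) (by omega) (by omega) H.kpos (hc.trans hp.symm)
    -- the pairs (a, c) and (b, c)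
    have h1 : z.2 k = z.2 (k + 2) := by
      have s1 : Equiv.swap (k + 1) (k + 2) k = k :=
        Equiv.swap_apply_of_ne_of_ne (by omega) (by omega)
      have s2 : Equiv.swap (k + 1) (k + 2) (k + 1) = k + 2 := Equiv.swap_apply_left _ _
      have hmem : perm (Equiv.swap (k + 1) (k + 2)) z ∈ H.atomKids 2 := by
        have ez : zed k k (perm (Equiv.swap (k + 1) (k + 2)) z) = zed k k z :=
          Prod.ext (perm_xS (by omega) (by omega) z) (by
            show pos k k (perm (Equiv.swap (k + 1) (k + 2)) z) = _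
            rw [perm_pos (by omega) (by omega), s1]; rfl)
        have ep : pos k k (perm (Equiv.swap (k + 1) (k + 2)) z) = pos k k z := congrArg Prod.snd ez
        refine ⟨by rw [ez]; exact hT, fun l hl => ?_, fun a b ha hb hab' => ?_⟩
        · rcases (by omega : l = k ∨ l = k + 1) with rfl | rfl
          · rfl
          · rw [ep, perm_pos (by omega) (by omega), s2, hc]
        · rw [ep, perm_swap_X]
          rcases (by omega : a = k ∧ b = k + 1 ∨ a = k + 1 ∧ b = k) with ⟨rfl, rfl⟩ | ⟨rfl, rfl⟩
          · rw [s1, s2, hsy, hca]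
          · rw [s1, s2, hca]
      have := hbc hmem
      rwa [perm_swap_A, perm_swap_A, s1, s2] at this
    have h2 : z.2 (k + 1) = z.2 (k + 2) := by
      have t1 : Equiv.swap k (k + 2) (Equiv.swap k (k + 1) k) = k + 1 := by
        rw [Equiv.swap_apply_left, Equiv.swap_apply_of_ne_of_ne (by omega) (by omega)]
      have t2 : Equiv.swap k (k + 2) (Equiv.swap k (k + 1) (k + 1)) = k + 2 := by
        rw [Equiv.swap_apply_right, Equiv.swap_apply_left]
      set z' := perm (Equiv.swap k (k + 1)) (perm (Equiv.swap k (k + 2)) z) with hz'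
      have eX : ∀ a b, z'.1 a b = z.1 (Equiv.swap k (k + 2) (Equiv.swap k (k + 1) a))
          (Equiv.swap k (k + 2) (Equiv.swap k (k + 1) b)) := fun a b => rfl
      have hmem : z' ∈ H.atomKids 2 := by
        have ez : zed k k z' = zed k k z := by
          refine Prod.ext ?_ ?_
          · show xS k z' = _
            rw [hz', perm_xS (by omega) (by omega), perm_xS (by omega) (by omega)]; rfl
          · show pos k k z' = _
            rw [hz', perm_pos (by omega) (by omega), perm_pos (by omega) (by omega), t1, hp]; rfl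
        have ep : pos k k z' = pos k k z := congrArg Prod.snd ez
        refine ⟨by rw [ez]; exact hT, fun l hl => ?_, fun a b ha hb hab' => ?_⟩
        · rcases (by omega : l = k ∨ l = k + 1) with rfl | rfl
          · rfl
          · rw [ep, hz', perm_pos (by omega) (by omega), perm_pos (by omega) (by omega), t2, hc]
        · rw [ep, eX]
          rcases (by omega : a = k ∧ b = k + 1 ∨ a = k + 1 ∧ b = k) with ⟨rfl, rfl⟩ | ⟨rfl, rfl⟩
          · rw [t1, t2, hsy, hcb]
          · rw [t1, t2, hcb]
      have := hac hmem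
      change z.2 (Equiv.swap k (k + 2) (Equiv.swap k (k + 1) k))
        = z.2 (Equiv.swap k (k + 2) (Equiv.swap k (k + 1) (k + 1))) at this
      rwa [t1, t2] at this
    exact hne (h1.trans h2.symm)
  have hpos : (2 : ℝ≥0∞) * H.P E + (k : ℝ≥0∞) * ∫⁻ z in E, H.mass (zed k k z) ∂H.P
      = ((k + 2 : ℕ) : ℝ≥0∞) * H.P E1 := by
    set Φ : Arr × Pos k → ℝ≥0∞ := fun w =>
      E.indicator (1 : Arr → ℝ≥0∞) w.1 * ({pos k k w.1} : Set (Pos k)).indicator 1 w.2 with hΦ
    have hΦm : Measurable Φ := by
      have e : Φ = ({w : Arr × Pos k | w.1 ∈ E} ∩ {w | ∀ s, w.2 s = pos k k w.1 s}).indicator 1 := by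
        funext w
        have hiff : (∀ s, w.2 s = pos k k w.1 s) ↔ w.2 = pos k k w.1 := funext_iff.symm
        by_cases h1 : w.1 ∈ E <;> by_cases h2 : w.2 = pos k k w.1 <;>
          simp [hΦ, indicator, h1, h2, hiff]
      rw [e]
      exact measurable_one.indicator ((measurable_fst hEm).inter
        (measurableSet_forall fun s => measurableSet_eq_fun (by fun_prop) (by fun_prop)))
    have e : ∀ z x, Φ (cut (k + 2) z, x) = E.indicator (1 : Arr → ℝ≥0∞) z * ({pos k k z} : Set (Pos k)).indicator 1 x := by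
      intro z x
      have hiff : cut (k + 2) z ∈ E ↔ z ∈ E := iff_of_eq (congrArg (z ∈ ·) hcut)
      by_cases h : z ∈ E <;> simp [hΦ, indicator, hiff, h, cut_pos (show k ≤ k + 2 by omega) (show k < k + 2 by omega)]
    have h := H.lint_sgg (k + 2) (by omega) hΦm
    simp only [e] at h
    have e1 : ∀ l, ∫⁻ z, E.indicator (1 : Arr → ℝ≥0∞) z * ({pos k k z} : Set (Pos k)).indicator 1 (pos k l z) ∂H.P
        = H.P (E ∩ {z | pos k l z = pos k k z}) := fun l => by
      rw [← lintegral_indicator_one (hEm.inter (measurableSet_pos_eq _ _))]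
      refine lintegral_congr fun z => ?_
      by_cases h1 : z ∈ E <;> by_cases h2 : pos k l z = pos k k z <;> simp [h1, h2, indicator]
    rw [e1, Finset.sum_congr rfl fun l _ => e1 l, Finset.sum_Ico_succ_top (by omega),
      Nat.Ico_succ_singleton, Finset.sum_singleton,
      show E ∩ {z | pos k k z = pos k k z} = E from inter_eq_left.2 fun z _ => rfl,
      show E ∩ {z | pos k (k + 1) z = pos k k z} = E from inter_eq_left.2 fun z hz => hz.2.1] at h
    refine Eq.trans ?_ h.symm
    rw [two_mul]
    congr 2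
    rw [← lintegral_indicator hEm]
    refine lintegral_congr fun z => ?_
    by_cases h1 : z ∈ E
    · simp only [indicator_of_mem h1, Pi.one_apply, one_mul, lintegral_indicator_one (measurableSet_singleton _)]; rfl
    · simp [indicator_of_notMem h1]
  have hov : ((k + 2 : ℕ) : ℝ≥0∞) * H.P E2 ≤ (2 : ℝ≥0∞) * H.P E := by
    set Φ : Arr × ℝ → ℝ≥0∞ := fun w =>
      E.indicator (1 : Arr → ℝ≥0∞) w.1 * (Ioi (topP (pos k k w.1))).indicator 1 w.2 with hΦ
    have hΦm : Measurable Φ := by
      have e : Φ = ({w : Arr × ℝ | w.1 ∈ E} ∩ {w | topP (pos k k w.1) < w.2}).indicator 1 := by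
        funext w
        by_cases h1 : w.1 ∈ E <;> by_cases h2 : topP (pos k k w.1) < w.2 <;>
          simp [hΦ, indicator, h1, h2]
      rw [e]
      exact measurable_one.indicator
        ((measurable_fst hEm).inter (measurableSet_lt (by fun_prop) (by fun_prop)))
    have e : ∀ z x, Φ (cut (k + 2) z, x) = E.indicator (1 : Arr → ℝ≥0∞) z * (Ioi (topP (pos k k z))).indicator 1 x := by
      intro z x
      have hiff : cut (k + 2) z ∈ E ↔ z ∈ E := iff_of_eq (congrArg (z ∈ ·) hcut)
      by_cases h : z ∈ E <;> simp [hΦ, indicator, hiff, h, cut_pos (show k ≤ k + 2 by omega) (show k < k + 2 by omega)]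
    have h := H.lint_gg1 (k + 2) (by omega) k (by omega) hΦm
    simp only [e] at h
    have e1 : ∀ a b, ∫⁻ z, E.indicator (1 : Arr → ℝ≥0∞) z * (Ioi (topP (pos k k z))).indicator 1 (z.1 a b) ∂H.P
        = H.P (E ∩ {z | topP (pos k k z) < z.1 a b}) := fun a b => by
      rw [← lintegral_indicator_one (hEm.inter (measurableSet_lt (by fun_prop) (by fun_prop)))]
      refine lintegral_congr fun z => ?_
      by_cases h1 : z ∈ E <;> by_cases h2 : topP (pos k k z) < z.1 a b <;> simp [h1, h2, indicator]
    rw [e1, Finset.sum_congr rfl fun l _ => e1 k l] at h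
    rw [h, two_mul]
    refine add_le_add ?_ ?_
    · rw [← lintegral_indicator_one hEm]
      refine lintegral_mono fun z => ?_
      by_cases h1 : z ∈ E
      · simp only [indicator_of_mem h1, Pi.one_apply, one_mul, lintegral_indicator_one measurableSet_Ioi]
        exact prob_le_one
      · simp [indicator_of_notMem h1]
    · rw [Finset.sum_eq_single (k + 1) (fun l hl hne => ?_) (fun hl => absurd ?_ hl)]
      · exact measure_mono inter_subset_left
      · refine measure_mono_null (fun z hz => ?_) measure_empty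
        obtain ⟨-, hp, -, -⟩ := hz.1
        obtain ⟨h3, h4⟩ := Finset.mem_erase.1 hl
        rw [Finset.mem_range] at h4
        have h5 : topP (pos k k z) < z.1 k l := hz.2
        have := le_topP (pos k k z) ⟨l, by omega⟩
        exact absurd h5 (not_lt.2 this)
      · simp
  have key : (2 : ℝ≥0∞) * H.P E + (k : ℝ≥0∞) * ∫⁻ z in E, H.mass (zed k k z) ∂H.P
      ≤ (2 : ℝ≥0∞) * H.P E + 0 := by
    rw [hpos, add_zero]
    exact le_trans (by gcongr) hov
  have h0 := (ENNReal.add_le_add_iff_left (ENNReal.mul_ne_top (by simp) (measure_ne_top _ _))).1 key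
  simp only [nonpos_iff_eq_zero, mul_eq_zero, Nat.cast_eq_zero, H.kpos.ne', false_or] at h0
  rw [lintegral_eq_zero_iff (by fun_prop), Filter.EventuallyEq, ae_restrict_iff' hEm] at h0
  rw [measure_eq_zero_iff_ae_notMem]
  filter_upwards [h0] with z hz hzE
  exact hzE.1 (hz hzE)

/-- At atoms the residual vanishes. -/
theorem Q_eq_zero_atom : ∀ᵐ z ∂H.P, H.mass (zed k k z) ≠ 0 → H.Q z = 0 := by
  set a : Arr → ℝ := fun z => clip (z.2 k)
  set T : Set (Sh k × Pos k) := {x | H.mass x ≠ 0}
  have hT : MeasurableSet T := (measurableSet_eq_fun (by fun_prop) measurable_const).compl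
  set W : Set ((Sh k × Pos k) × Pos k) := {w | w.1 ∈ T} ∩ {w | w.2 = w.1.2}
  have hW : MeasurableSet W := (measurable_fst hT).inter measurableSet_fiber
  have hψ : ∀ l, Measurable fun z : Arr => (zed k k z, pos k l z) := fun l => by fun_prop
  have hs := H.star_pairs (w := fun _ => 1) measurable_const (c := 1) (fun _ => by simp) hW
  simp only [one_mul] at hs
  have hpre : ∀ z, (zed k k z, pos k k z) ∈ W ↔ zed k k z ∈ T := fun z =>
    ⟨fun h => h.1, fun h => ⟨h, rfl⟩⟩
  -- the right side only sees `A k`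
  have hR : ∫ z in (fun z => (zed k k z, pos k (k + 1) z)) ⁻¹' W, H.Q z * z.2 (k + 1) ∂H.P =
      ∫ z in (fun z => (zed k k z, pos k (k + 1) z)) ⁻¹' W, H.Q z * a z ∂H.P := by
    refine setIntegral_congr_ae (hψ _ hW) ?_
    filter_upwards [H.eq_of_same_atom, H.bddA] with z h hb hz
    show H.Q z * z.2 (k + 1) = H.Q z * clip (z.2 k)
    rw [← h hz.1 hz.2, clip_of_abs_le (hb k)]
  have hL : ∫ z in (fun z => (zed k k z, pos k k z)) ⁻¹' W, H.Q z * z.2 k ∂H.P =
      ∫ z in (fun z => (zed k k z, pos k k z)) ⁻¹' W, H.Q z * a z ∂H.P := by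
    refine setIntegral_congr_ae (hψ _ hW) ?_
    filter_upwards [H.bddA] with z hb _
    show H.Q z * z.2 k = H.Q z * clip (z.2 k)
    rw [clip_of_abs_le (hb k)]
  rw [hR, hL] at hs
  -- the strong identity
  set Φ : Arr × Pos k → ℝ := fun p => W.indicator (fun _ => H.Q p.1 * a p.1) (zed k k p.1, p.2)
    with hΦdef
  have hΦ : Measurable Φ := by
    have e : Φ = ((fun p : Arr × Pos k => (zed k k p.1, p.2)) ⁻¹' W).indicator
        (fun p => H.Q p.1 * a p.1) := by
      funext p
      by_cases h : (zed k k p.1, p.2) ∈ W <;> simp [hΦdef, h]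
    rw [e]
    exact Measurable.indicator (by fun_prop) (hW.preimage (by fun_prop))
  have hΦb : ∀ p, |Φ p| ≤ 2 := fun p => by
    by_cases h : (zed k k p.1, p.2) ∈ W
    · rw [hΦdef]; simp only [indicator_of_mem h, abs_mul]
      nlinarith [H.abs_Q_le p.1, abs_clip_le (p.1.2 k), abs_nonneg (H.Q p.1), abs_nonneg (a p.1)]
    · rw [hΦdef]; simp [indicator_of_notMem h]
  have hcutΦ : ∀ z x, Φ (cut (k + 1) z, x) = W.indicator (fun _ => H.Q z * a z) (zed k k z, x) :=
    fun z x => by
      simp only [hΦdef, H.Q_cut, cut_zed k.le_succ k.lt_succ_self, a, cut_A k.lt_succ_self]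
  have h := H.int_sgg hΦ hΦb
  simp only [hcutΦ] at h
  have e1 : ∀ l, ∫ z, W.indicator (fun _ => H.Q z * a z) (zed k k z, pos k l z) ∂H.P =
      ∫ z in (fun z => (zed k k z, pos k l z)) ⁻¹' W, H.Q z * a z ∂H.P := fun l => by
    rw [← integral_indicator (hψ l hW)]
    refine integral_congr_ae (ae_of_all _ fun z => ?_)
    by_cases hz : (zed k k z, pos k l z) ∈ W <;> simp [hz]
  rw [e1, e1, ← hs] at h
  have h' : ∫ z, ∫ x, W.indicator (fun _ => H.Q z * a z) (zed k k z, x) ∂H.γ (xS k z) ∂H.P = 0 := by
    have hk : (k : ℝ) ≠ 0 := Nat.cast_ne_zero.2 H.kpos.ne'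
    exact (mul_eq_zero.1 (add_eq_left.1 h.symm)).resolve_left hk
  set g : Sh k × Pos k → ℝ := T.indicator fun x => (H.mass x).toReal
  have hg : Measurable g := Measurable.indicator (by fun_prop) hT
  have hgb : ∀ x, 0 ≤ g x ∧ g x ≤ 1 := fun x => by
    by_cases hx : x ∈ T
    · simp only [g, indicator_of_mem hx]
      exact ⟨ENNReal.toReal_nonneg, ENNReal.toReal_le_of_le_ofReal zero_le_one
        (by rw [ENNReal.ofReal_one]; exact prob_le_one)⟩
    · simp [g, indicator_of_notMem hx]
  have e2 : ∀ z, ∫ x, W.indicator (fun _ => H.Q z * a z) (zed k k z, x) ∂H.γ (xS k z) =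
      g (zed k k z) * H.Q z * a z := fun z => by
    by_cases hz : zed k k z ∈ T
    · have : (fun x => W.indicator (fun _ => H.Q z * a z) (zed k k z, x)) =
          ({pos k k z} : Set (Pos k)).indicator fun _ => H.Q z * a z := by
        funext x
        by_cases hx : x = pos k k z
        · subst hx
          rw [indicator_of_mem (show _ ∈ W from ⟨hz, rfl⟩), indicator_of_mem (mem_singleton _)]
        · rw [indicator_of_notMem (show _ ∉ W from fun h => hx h.2), indicator_of_notMem (by simpa using hx)]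
      rw [this, integral_indicator_const _ (measurableSet_singleton _)]
      simp only [g, indicator_of_mem hz, smul_eq_mul, mul_assoc]
      rfl
    · have : (fun x => W.indicator (fun _ => H.Q z * a z) (zed k k z, x)) = fun _ => 0 :=
        funext fun x => indicator_of_notMem (fun h => hz h.1) _
      simp [this, g, indicator_of_notMem hz]
  simp only [e2] at h'
  -- replace `a` by the residual
  have horth := H.orth (w := fun x => g x * H.G x) (hg.mul H.measurable_G) (c := 1) fun x => by
    rw [abs_mul, abs_of_nonneg (hgb x).1]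
    exact mul_le_one₀ (hgb x).2 (abs_nonneg _) (H.abs_G_le x)
  have hi1 : Integrable (fun z => g (zed k k z) * H.Q z * a z) H.P := by
    refine Integrable.of_bound (by fun_prop) 2 (ae_of_all _ fun z => ?_)
    rw [Real.norm_eq_abs, abs_mul, abs_mul, abs_of_nonneg (hgb _).1]
    calc g (zed k k z) * |H.Q z| * |a z| ≤ 1 * 2 * 1 := mul_le_mul
          (mul_le_mul (hgb _).2 (H.abs_Q_le z) (abs_nonneg _) zero_le_one) (abs_clip_le _)
          (abs_nonneg _) (by norm_num)
      _ = 2 := by norm_num
  have hi2 : Integrable (fun z => g (zed k k z) * H.G (zed k k z) * H.Q z) H.P := by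
    refine Integrable.of_bound (by fun_prop) 2 (ae_of_all _ fun z => ?_)
    rw [Real.norm_eq_abs, abs_mul, abs_mul, abs_of_nonneg (hgb _).1]
    calc g (zed k k z) * |H.G (zed k k z)| * |H.Q z| ≤ 1 * 1 * 2 := mul_le_mul
          (mul_le_mul (hgb _).2 (H.abs_G_le _) (abs_nonneg _) zero_le_one) (H.abs_Q_le z)
          (abs_nonneg _) (by norm_num)
      _ = 2 := by norm_num
  have hsq : ∫ z, g (zed k k z) * H.Q z ^ 2 ∂H.P = 0 := by
    have : ∀ z, g (zed k k z) * H.Q z ^ 2 =
        g (zed k k z) * H.Q z * a z - g (zed k k z) * H.G (zed k k z) * H.Q z := fun z => by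
      simp only [a, Hyp.Q]; ring
    simp only [this]
    rw [integral_sub hi1 hi2, h', horth, sub_zero]
  rw [integral_eq_zero_iff_of_nonneg (fun z => mul_nonneg (hgb _).1 (sq_nonneg _))
    (Integrable.of_bound (((hg.comp (measurable_zed k k)).mul (H.measurable_Q.pow_const 2)
      ).aestronglyMeasurable) 4 (ae_of_all _ fun z => by
      rw [Real.norm_eq_abs, abs_mul, abs_of_nonneg (hgb _).1, abs_pow]
      calc g (zed k k z) * |H.Q z| ^ 2 ≤ 1 * 2 ^ 2 :=
            mul_le_mul (hgb _).2 (pow_le_pow_left₀ (abs_nonneg _) (H.abs_Q_le z) 2) (by positivity) zero_le_one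
        _ = 4 := by norm_num))] at hsq
  filter_upwards [hsq] with z hz hne
  have hpos : 0 < g (zed k k z) := by
    simp only [g, indicator_of_mem (show zed k k z ∈ T from hne)]
    exact ENNReal.toReal_pos hne (measure_ne_top _ _)
  exact sq_eq_zero_iff.1 ((mul_eq_zero.1 hz).resolve_left hpos.ne')

end Hyp

end

end Vale.Agent.P168.Induct
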