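import Vale.Agent.P168.Induct.Core

/-!
P168, induction (helper27): Bessel's inequality over many exchangeable children.

If `m` replicas can be added, with a probability depending on a key only, so that their mutual
overlaps lie in one window of width `δ`, then two of them have close multi-overlaps in `L²`.
-/

namespace Vale.Agent.P168.Induct

open MeasureTheory ProbabilityTheory Set
open scoped ENNReal

noncomputable section

variable {k : ℕ}

theorem sum_range_two_mul {β : Type*} [AddCommMonoid β] (g : ℕ → β) (M : ℕ) :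
    ∑ t ∈ Finset.range (2 * M), g t = ∑ i ∈ Finset.range M, (g (2 * i) + g (2 * i + 1)) := by
  induction M with
  | zero => simp
  | succ n ih =>
      rw [Finset.sum_range_succ _ n, ← ih, show 2 * (n + 1) = 2 * n + 1 + 1 by ring,
        Finset.sum_range_succ, Finset.sum_range_succ, add_assoc]

/-- Almost orthogonal differences see a unit vector only a little. -/
theorem sq_pairs_le {k M : ℕ} {a : ℕ → ℝ} {G : ℕ → ℕ → ℝ} {V δ : ℝ} (hV : |V| ≤ 1) (hδ : 0 ≤ δ)
    (hG : ∀ i ∈ Finset.Ico k (k + 2 * M), ∀ j ∈ Finset.Ico k (k + 2 * M), i ≠ j → |G i j - V| ≤ δ)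
    (hpsd : ∀ x : ℕ → ℝ, (∑ i ∈ Finset.Ico k (k + 2 * M), x i * a i) ^ 2 ≤
      ∑ i ∈ Finset.Ico k (k + 2 * M), ∑ j ∈ Finset.Ico k (k + 2 * M),
        x i * x j * (if i = j then 1 else G i j)) :
    ∑ i ∈ Finset.range M, (a (k + 2 * i) - a (k + 2 * i + 1)) ^ 2 ≤ 4 + 4 * M * δ := by
  set Δ : ℕ → ℝ := fun i => a (k + 2 * i) - a (k + 2 * i + 1)
  set S := ∑ i ∈ Finset.range M, Δ i ^ 2 with hS
  set s := Finset.Ico k (k + 2 * M)
  set x : ℕ → ℝ := fun l => if (l - k) % 2 = 0 then Δ ((l - k) / 2) else -Δ ((l - k) / 2) with hx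
  have key : ∀ g : ℕ → ℝ → ℝ, ∑ l ∈ s, g l (x l) =
      ∑ i ∈ Finset.range M, (g (k + 2 * i) (Δ i) + g (k + 2 * i + 1) (-Δ i)) := fun g => by
    rw [Finset.sum_Ico_eq_sum_range, show k + 2 * M - k = 2 * M by omega, sum_range_two_mul]
    refine Finset.sum_congr rfl fun i _ => ?_
    simp only [hx, show k + 2 * i - k = 2 * i by omega, show k + (2 * i + 1) - k = 2 * i + 1 by omega,
      Nat.mul_mod_right, show (2 * i + 1) % 2 = 1 by omega, if_true, one_ne_zero, if_false,
      show 2 * i / 2 = i by omega, show (2 * i + 1) / 2 = i by omega, add_assoc]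
  have h0 : ∑ l ∈ s, x l = 0 := by simpa using key fun _ v => v
  have h1 : ∑ l ∈ s, x l * a l = S := by
    rw [key fun l v => v * a l]
    exact Finset.sum_congr rfl fun i _ => by simp only [Δ]; ring
  have h2 : ∑ l ∈ s, x l ^ 2 = 2 * S := by
    rw [key fun _ v => v ^ 2, hS, Finset.mul_sum]
    exact Finset.sum_congr rfl fun i _ => by ring
  have h3 : (∑ l ∈ s, |x l|) ^ 2 ≤ (2 * M) * (2 * S) := by
    have := sq_sum_le_card_mul_sum_sq (s := s) (f := fun l => |x l|)
    simp only [sq_abs, h2, s, Nat.card_Ico] at this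
    rw [show k + 2 * M - k = 2 * M by omega] at this
    push_cast at this
    exact this
  have hV0 : ∑ i ∈ s, ∑ j ∈ s, x i * x j * V = 0 := by
    simp [← Finset.sum_mul, ← Finset.mul_sum, h0]
  have h4 : ∑ i ∈ s, ∑ j ∈ s, x i * x j * (if i = j then 1 else G i j) ≤
      2 * (2 * S) + δ * ((2 * M) * (2 * S)) := by
    calc ∑ i ∈ s, ∑ j ∈ s, x i * x j * (if i = j then 1 else G i j)
        = ∑ i ∈ s, ∑ j ∈ s, x i * x j * ((if i = j then 1 else G i j) - V) := by
          simp only [mul_sub, Finset.sum_sub_distrib, hV0, sub_zero]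
      _ ≤ ∑ i ∈ s, ∑ j ∈ s, ((if i = j then 2 * x i ^ 2 else 0) + δ * (|x i| * |x j|)) := by
          refine Finset.sum_le_sum fun i hi => Finset.sum_le_sum fun j hj => ?_
          have hp := mul_nonneg hδ (mul_nonneg (abs_nonneg (x i)) (abs_nonneg (x j)))
          split_ifs with h
          · subst h
            nlinarith [mul_le_mul_of_nonneg_left (show 1 - V ≤ 2 by linarith [(abs_le.1 hV).1])
              (mul_self_nonneg (x i))]
          · rw [zero_add]
            refine (le_abs_self _).trans ?_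
            rw [abs_mul, abs_mul, mul_comm δ]
            exact mul_le_mul_of_nonneg_left (hG i hi j hj h) (by positivity)
      _ = 2 * (2 * S) + δ * (∑ l ∈ s, |x l|) ^ 2 := by
          simp only [Finset.sum_add_distrib, Finset.sum_ite_eq, ← Finset.mul_sum, sq (∑ l ∈ s, |x l|),
            Finset.sum_mul]
          rw [Finset.sum_congr rfl fun i hi => if_pos hi, ← Finset.mul_sum, h2]
      _ ≤ _ := by linarith [mul_le_mul_of_nonneg_left h3 hδ]
  have h5 := (hpsd x).trans h4
  rw [h1] at h5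
  show S ≤ _
  rcases le_or_gt S 0 with hS0 | hS0
  · exact hS0.trans (by positivity)
  · exact le_of_mul_le_mul_right (by linarith [h5, sq S]) hS0

namespace Hyp

variable (H : Hyp k)

/-- Children which can be added with a probability depending on the key only. -/
structure Children {α : Type*} [MeasurableSpace α] (key : Arr → α) (D : ℕ → Set Arr)
    (q : ℕ → α → ℝ≥0∞) (V : Arr → ℝ) (δ : ℝ) : Prop where
  key_meas : Measurable key
  key_cut : ∀ n z, k < n → key (cut n z) = key z
  D_meas : ∀ m, MeasurableSet (D m)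
  D_perm : ∀ m i j z, k ≤ i → i < k + m → k ≤ j → j < k + m →
    ((perm (Equiv.swap i j) z ∈ D m ↔ z ∈ D m) ∧
      (z ∈ D m → key (perm (Equiv.swap i j) z) = key z))
  q_meas : ∀ m, Measurable (q m)
  q_top : ∀ m x, q m x ≠ ∞
  q_ne : ∀ m, 2 ≤ m → ∀ᵐ z ∂H.P, z ∈ D 2 → q m (key z) ≠ 0
  step : ∀ m, 2 ≤ m → ∀ B : Set Arr, MeasurableSet B →
    H.P (cut (k + m) ⁻¹' B ∩ D (m + 1)) = ∫⁻ z in cut (k + m) ⁻¹' B ∩ D m, q m (key z) ∂H.P
  window : ∀ᵐ z ∂H.P, ∀ m, z ∈ D m → |V z| ≤ 1 ∧ ∀ i ∈ Finset.Ico k (k + m),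
    ∀ j ∈ Finset.Ico k (k + m), i ≠ j → |H.L (z.1 i j) - V z| ≤ δ

variable {H} {α : Type*} [MeasurableSpace α] {key : Arr → α} {D : ℕ → Set Arr}
  {q : ℕ → α → ℝ≥0∞} {V : Arr → ℝ} {δ : ℝ}

theorem Children.lint_step (hC : H.Children key D q V δ) {m : ℕ} (hm : 2 ≤ m) {φ : Arr → ℝ≥0∞}
    (hφ : Measurable φ) :
    ∫⁻ z in D (m + 1), φ (cut (k + m) z) ∂H.P =
      ∫⁻ z in D m, φ (cut (k + m) z) * q m (key z) ∂H.P := by
  have hq : Measurable fun z => q m (key z) := (hC.q_meas m).comp hC.key_meas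
  have e : (H.P.restrict (D (m + 1))).map (cut (k + m)) =
      ((H.P.restrict (D m)).withDensity fun z => q m (key z)).map (cut (k + m)) := by
    ext B hB
    rw [Measure.map_apply (measurable_cut _) hB, Measure.map_apply (measurable_cut _) hB,
      Measure.restrict_apply (measurable_cut _ hB), withDensity_apply _ (measurable_cut _ hB),
      Measure.restrict_restrict (measurable_cut _ hB)]
    exact hC.step m hm B hB
  have h := congrArg (fun μ => ∫⁻ w, φ w ∂μ) e
  simp only [lintegral_map hφ (measurable_cut _)] at h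
  rw [lintegral_withDensity_eq_lintegral_mul _ hq (g := fun z => φ (cut (k + m) z)) (by fun_prop)] at h
  simpa [mul_comm] using h

theorem Children.chain (hC : H.Children key D q V δ) (j : ℕ) : ∀ {f : Arr → ℝ≥0∞}, Measurable f →
    (∀ n z, k + 2 ≤ n → f (cut n z) = f z) →
      ∫⁻ z in D (2 + j), f z ∂H.P =
        ∫⁻ z in D 2, f z * ∏ i ∈ Finset.range j, q (2 + i) (key z) ∂H.P := by
  induction j with
  | zero => intro f _ _; simp
  | succ n ih =>
      intro f hf hcut
      have hq : Measurable fun z => q (2 + n) (key z) := (hC.q_meas _).comp hC.key_meas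
      have h := hC.lint_step (m := 2 + n) (by omega) hf
      simp only [hcut (k + (2 + n)) _ (by omega)] at h
      rw [← add_assoc, h, ih (f := fun z => f z * q (2 + n) (key z)) (hf.mul hq) fun n' z hn' => by
        rw [hcut n' z hn', hC.key_cut n' z (by omega)]]
      refine lintegral_congr fun z => ?_
      rw [Finset.prod_range_succ]; ring

theorem Children.lint_pair (hC : H.Children key D q V δ) {m : ℕ} {w : α → ℝ≥0∞} (hw : Measurable w)
    {i j a b : ℕ} (hi : k ≤ i) (hi' : i < k + m) (hj : k ≤ j) (hj' : j < k + m) :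
    ∫⁻ z in D m, w (key z) * ENNReal.ofReal ((z.2 a - z.2 b) ^ 2) ∂H.P =
      ∫⁻ z in D m, w (key z) * ENNReal.ofReal
        ((z.2 (Equiv.swap i j a) - z.2 (Equiv.swap i j b)) ^ 2) ∂H.P := by
  have := hC.key_meas
  rw [← lintegral_indicator (hC.D_meas m), ← lintegral_indicator (hC.D_meas m),
    ← H.lint_swap hi hj (Measurable.indicator (by fun_prop) (hC.D_meas m))]
  refine lintegral_congr fun z => ?_
  obtain ⟨h1, h2⟩ := hC.D_perm m i j z hi hi' hj hj'
  by_cases h : z ∈ D m
  · rw [indicator_of_mem (h1.2 h), indicator_of_mem h, h2 h]; rfl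
  · rw [indicator_of_notMem (mt h1.1 h), indicator_of_notMem h]

/-- Two children of one window have close multi-overlaps. -/
theorem Children.sq_sub_le (hC : H.Children key D q V δ) (hδ : 0 ≤ δ) {h : α → ℝ≥0∞}
    (hh : Measurable h) {c : ℝ≥0∞} (hc : c ≠ ∞) (hhc : ∀ x, h x ≤ c) :
    ∫⁻ z in D 2, h (key z) * ENNReal.ofReal ((z.2 k - z.2 (k + 1)) ^ 2) ∂H.P ≤
      ENNReal.ofReal (4 * δ) * ∫⁻ z in D 2, h (key z) ∂H.P := by
  set I := ∫⁻ z in D 2, h (key z) * ENNReal.ofReal ((z.2 k - z.2 (k + 1)) ^ 2) ∂H.P with hI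
  set J := ∫⁻ z in D 2, h (key z) ∂H.P with hJ
  have hkey := hC.key_meas
  have hJt : J ≠ ∞ := ne_top_of_le_ne_top (ENNReal.mul_ne_top hc (measure_ne_top _ (D 2)))
    (le_trans (setLIntegral_mono measurable_const fun z _ => hhc _) (setLIntegral_const _ _).le)
  have hM : ∀ M : ℕ, (M + 1 : ℕ) * I ≤ ENNReal.ofReal (4 + 4 * (M + 1 : ℕ) * δ) * J := by
    intro M
    set Q : α → ℝ≥0∞ := fun x => ∏ i ∈ Finset.range (2 * M), q (2 + i) x with hQ
    have hQm : Measurable Q := Finset.measurable_fun_prod _ fun i _ => hC.q_meas _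
    set w : α → ℝ≥0∞ := fun x => h x * (Q x)⁻¹
    have hwm : Measurable w := hh.mul hQm.inv
    have hQ0 : ∀ᵐ z ∂H.P.restrict (D 2), (Q (key z))⁻¹ * Q (key z) = 1 := by
      rw [ae_restrict_iff' (hC.D_meas 2)]
      filter_upwards [ae_all_iff.2 fun i : ℕ => hC.q_ne (2 + i) (by omega)] with z hz hzD
      exact ENNReal.inv_mul_cancel (Finset.prod_ne_zero_iff.2 fun i _ => hz i hzD)
        (ENNReal.prod_ne_top fun i _ => hC.q_top _ _)
    have hpairs : ∀ i ∈ Finset.range (M + 1),
        ∫⁻ z in D (2 + 2 * M), w (key z) *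
          ENNReal.ofReal ((z.2 (k + 2 * i) - z.2 (k + 2 * i + 1)) ^ 2) ∂H.P = I := by
      intro i hi
      rw [Finset.mem_range] at hi
      have e : ∫⁻ z in D (2 + 2 * M), w (key z) * ENNReal.ofReal ((z.2 k - z.2 (k + 1)) ^ 2) ∂H.P
          = I := by
        rw [hC.chain (2 * M) (by fun_prop) fun n z hn => by
          rw [hC.key_cut n z (by omega), cut_A (by omega), cut_A (by omega)]]
        refine lintegral_congr_ae (hQ0.mono fun z hz => ?_)
        show h (key z) * (Q (key z))⁻¹ * _ * Q (key z) = _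
        rw [mul_right_comm (h (key z) * _), mul_assoc (h (key z)), hz, mul_one]
      rcases Nat.eq_zero_or_pos i with rfl | hi0
      · simpa using e
      refine Eq.trans ?_ e
      rw [hC.lint_pair hwm (a := k + 2 * i) (b := k + 2 * i + 1) (i := k) (j := k + 2 * i) le_rfl
          (by omega) (by omega) (by omega),
        hC.lint_pair hwm (a := Equiv.swap k (k + 2 * i) (k + 2 * i))
          (b := Equiv.swap k (k + 2 * i) (k + 2 * i + 1)) (i := k + 1) (j := k + 2 * i + 1)
          (by omega) (by omega) (by omega) (by omega)]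
      rw [Equiv.swap_apply_right, Equiv.swap_apply_of_ne_of_ne (x := k + 2 * i + 1) (by omega) (by omega),
        Equiv.swap_apply_right, Equiv.swap_apply_of_ne_of_ne (x := k) (by omega) (by omega)]
    calc (M + 1 : ℕ) * I
        = ∑ i ∈ Finset.range (M + 1), ∫⁻ z in D (2 + 2 * M), w (key z) *
          ENNReal.ofReal ((z.2 (k + 2 * i) - z.2 (k + 2 * i + 1)) ^ 2) ∂H.P := by
          rw [Finset.sum_congr rfl hpairs, Finset.sum_const, Finset.card_range, nsmul_eq_mul]
      _ = ∫⁻ z in D (2 + 2 * M), w (key z) * ENNReal.ofReal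
          (∑ i ∈ Finset.range (M + 1), (z.2 (k + 2 * i) - z.2 (k + 2 * i + 1)) ^ 2) ∂H.P := by
          rw [← lintegral_finsetSum _ fun i _ => by fun_prop]
          refine lintegral_congr fun z => ?_
          rw [ENNReal.ofReal_sum_of_nonneg fun i _ => sq_nonneg _, Finset.mul_sum]
      _ ≤ ∫⁻ z in D (2 + 2 * M), w (key z) * ENNReal.ofReal (4 + 4 * (M + 1 : ℕ) * δ) ∂H.P := by
          refine lintegral_mono_ae ?_
          rw [ae_restrict_iff' (hC.D_meas _)]
          filter_upwards [hC.window, H.psd] with z hw hp hz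
          obtain ⟨hV, hG⟩ := hw _ hz
          rw [show 2 + 2 * M = 2 * (M + 1) by ring] at hG
          gcongr
          exact sq_pairs_le (a := z.2) (G := fun i j => H.L (z.1 i j)) hV hδ hG fun x =>
            hp _ x fun i hi => (Finset.mem_Ico.1 hi).1
      _ = (∫⁻ z in D (2 + 2 * M), w (key z) ∂H.P) * ENNReal.ofReal (4 + 4 * (M + 1 : ℕ) * δ) :=
          lintegral_mul_const _ (hwm.comp hkey)
      _ = ENNReal.ofReal (4 + 4 * (M + 1 : ℕ) * δ) * J := by
          rw [mul_comm]
          congr 1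
          rw [hC.chain (2 * M) (f := fun z => w (key z)) (hwm.comp hkey) fun n z hn => by rw [hC.key_cut n z (by omega)]]
          refine lintegral_congr_ae (hQ0.mono fun z hz => ?_)
          show h (key z) * (Q (key z))⁻¹ * Q (key z) = _
          rw [mul_assoc, hz, mul_one]
  have hlim : Filter.Tendsto (fun M : ℕ => ENNReal.ofReal (4 * (1 / ((M : ℝ) + 1)) + 4 * δ) * J)
      Filter.atTop (nhds (ENNReal.ofReal (4 * δ) * J)) := by
    refine ENNReal.Tendsto.mul_const ?_ (Or.inr hJt)
    exact (ENNReal.continuous_ofReal.tendsto _).comp (by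
      simpa using (tendsto_one_div_add_atTop_nhds_zero_nat.const_mul (4 : ℝ)).add_const (4 * δ))
  refine ge_of_tendsto' hlim fun M => ?_
  have h0 : ((M + 1 : ℕ) : ℝ≥0∞) ≠ 0 := by simp
  refine (ENNReal.mul_le_mul_iff_right h0 (ENNReal.natCast_ne_top _)).1 ((hM M).trans_eq ?_)
  rw [← mul_assoc, ← ENNReal.ofReal_natCast, ← ENNReal.ofReal_mul (Nat.cast_nonneg _)]
  congr 2
  push_cast
  field_simp

end Hyp

end

end Vale.Agent.P168.Induct
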