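import Mathlib

/-!
P168, induction (helper27): finite measures on a countable cube are determined by their moments.
-/

namespace Vale.Agent.P168.Induct

open MeasureTheory Set
open scoped BoundedContinuousFunction

noncomputable section

variable {ι : Type*} [Countable ι]

/-- A countable power of `[-1, 1]`. -/
abbrev CubeOn (ι : Type*) := ι → ↥(Icc (-1 : ℝ) 1)

/-- A coordinate as a continuous function. -/
def coordC (i : ι) : C(CubeOn ι, ℝ) := ⟨fun x => (x i : ℝ), by fun_prop⟩

omit [Countable ι] in
theorem integrable_contMap {μ : Measure (CubeOn ι)} [IsFiniteMeasure μ] [BorelSpace (CubeOn ι)]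
    (g : C(CubeOn ι, ℝ)) : Integrable g μ :=
  Integrable.of_bound g.continuous.aestronglyMeasurable ‖g‖
    (ae_of_all _ fun x => ContinuousMap.norm_coe_le_norm g x)

/-- Measures with the same moments coincide. -/
theorem ext_of_moments {μ μ' : Measure (CubeOn ι)} [IsFiniteMeasure μ] [IsFiniteMeasure μ']
    (h : ∀ g ∈ Submonoid.closure (range (coordC (ι := ι))), ∫ x, g x ∂μ = ∫ x, g x ∂μ') :
    μ = μ' := by
  set S : Subalgebra ℝ C(CubeOn ι, ℝ) := Algebra.adjoin ℝ (range coordC)
  have hS : S.SeparatesPoints := by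
    intro x y hxy
    obtain ⟨i, hi⟩ := Function.ne_iff.1 hxy
    exact ⟨_, ⟨coordC i, Algebra.subset_adjoin ⟨i, rfl⟩, rfl⟩, fun e => hi (Subtype.ext e)⟩
  have hadj : ∀ g ∈ S, ∫ x, g x ∂μ = ∫ x, g x ∂μ' := by
    intro g hg
    have hg' : g ∈ Submodule.span ℝ (Submonoid.closure (range (coordC (ι := ι))) : Set C(CubeOn ι, ℝ)) := by
      rw [← Algebra.adjoin_eq_span]
      exact hg
    clear hg
    induction hg' using Submodule.span_induction with
    | mem g hg => exact h g hg
    | zero => simp
    | add a b _ _ ha hb =>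
      simp only [ContinuousMap.add_apply]
      rw [integral_add (integrable_contMap a) (integrable_contMap b),
        integral_add (integrable_contMap a) (integrable_contMap b), ha, hb]
    | smul c a _ ha =>
      simp only [ContinuousMap.smul_apply, smul_eq_mul]
      rw [integral_const_mul, integral_const_mul, ha]
  refine ext_of_forall_integral_eq_of_IsFiniteMeasure fun f => ?_
  by_contra hne
  set d := |∫ x, f x ∂μ - ∫ x, f x ∂μ'|
  have hd : 0 < d := abs_pos.2 (sub_ne_zero.2 hne)
  set M := μ.real univ + μ'.real univ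
  have hM : 0 ≤ M := add_nonneg measureReal_nonneg measureReal_nonneg
  set ε := d / (2 * (M + 1))
  obtain ⟨⟨g, hg⟩, hgf⟩ := ContinuousMap.exists_mem_subalgebra_near_continuousMap_of_separatesPoints
    S hS f.toContinuousMap ε (by positivity)
  have hb : ∀ ν : Measure (CubeOn ι), IsFiniteMeasure ν →
      |∫ x, g x ∂ν - ∫ x, f x ∂ν| ≤ ε * ν.real univ := by
    intro ν _
    rw [← integral_sub (integrable_contMap g) (f.integrable ν), ← Real.norm_eq_abs]
    exact norm_integral_le_of_norm_le_const (ae_of_all _ fun x =>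
      ((g - f.toContinuousMap).norm_coe_le_norm x).trans hgf.le)
  have h1 := abs_le.1 (hb μ inferInstance)
  have h2 := abs_le.1 (hb μ' inferInstance)
  rw [hadj g hg] at h1
  have hle : d ≤ ε * M := abs_le.2 ⟨by linarith, by linarith⟩
  have : ε * (2 * (M + 1)) = d := div_mul_cancel₀ _ (by positivity)
  nlinarith

end

end Vale.Agent.P168.Induct
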