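import Vale.Agent.P168.Induct.Arr
import Vale.Agent.P168.Induct.Moments

/-!
P168, induction (helper27): the centred derivative identity at a prescribed position.
-/

namespace Vale.Agent.P168.Induct

open MeasureTheory Set
open scoped symmDiff NNReal ENNReal

noncomputable section

variable {L : Lim} {w : (Σ j : Spc, Finset (Fin j.1)) → ℝ}

theorem mem_cat_left {k k' : ℕ} {A : Pat k} {A' : Pat k'} {r : ℕ} {i : Fin k} :
    (r, Fin.castAdd k' i) ∈ cat A A' ↔ (r, i) ∈ A := by
  simp only [cat, Finset.mem_union, Finset.mem_image, Prod.mk.injEq]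
  constructor
  · rintro (⟨⟨a, b⟩, h, rfl, he⟩ | ⟨⟨a, b⟩, h, rfl, he⟩)
    · rwa [← Fin.castAdd_injective _ _ he]
    · have := congrArg Fin.val he
      simp at this
      omega
  · exact fun h => Or.inl ⟨_, h, rfl, rfl⟩

theorem mem_cat_right {k k' : ℕ} {A : Pat k} {A' : Pat k'} {r : ℕ} {i : Fin k'} :
    (r, Fin.natAdd k i) ∈ cat A A' ↔ (r, i) ∈ A' := by
  simp only [cat, Finset.mem_union, Finset.mem_image, Prod.mk.injEq]
  constructor
  · rintro (⟨⟨a, b⟩, h, rfl, he⟩ | ⟨⟨a, b⟩, h, rfl, he⟩)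
    · have := congrArg Fin.val he
      simp at this
      omega
    · rwa [← Fin.natAdd_injective _ _ he]
  · exact fun h => Or.inr ⟨_, h, rfl, rfl⟩

/-- Positions side by side. -/
def catPos {k k' : ℕ} (B : Finset (Fin k)) (B' : Finset (Fin k')) : Finset (Fin (k + k')) :=
  B.image (Fin.castAdd k') ∪ B'.image (Fin.natAdd k)

theorem cat_single {k k' : ℕ} (l : ℕ) (B : Finset (Fin k)) (B' : Finset (Fin k')) :
    cat (single l B) (single l B') = single l (catPos B B') := by
  ext ⟨r, i⟩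
  simp only [cat, catPos, mem_single, Finset.mem_union, Finset.mem_image, Prod.exists,
    Prod.mk.injEq]
  constructor
  · rintro (⟨a, b, ⟨ha, hb⟩, rfl, rfl⟩ | ⟨a, b, ⟨ha, hb⟩, rfl, rfl⟩)
    · exact ⟨ha, Or.inl ⟨b, hb, rfl⟩⟩
    · exact ⟨ha, Or.inr ⟨b, hb, rfl⟩⟩
  · rintro ⟨rfl, ⟨b, hb, rfl⟩ | ⟨b, hb, rfl⟩⟩
    · exact Or.inl ⟨r, b, ⟨rfl, hb⟩, rfl, rfl⟩
    · exact Or.inr ⟨r, b, ⟨rfl, hb⟩, rfl, rfl⟩

theorem flipPat_cat {k k' : ℕ} (l : ℕ) (A : Pat k) (A' : Pat k') (B : Finset (Fin k))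
    (B' : Finset (Fin k')) :
    flipPat (cat A A') l (catPos B B') = cat (flipPat A l B) (flipPat A' l B') := by
  ext ⟨r, i⟩
  induction i using Fin.addCases with
  | left i =>
    rw [mem_cat_left]
    simp only [flipPat, Finset.mem_symmDiff, ← cat_single, mem_cat_left]
  | right i =>
    rw [mem_cat_right]
    simp only [flipPat, Finset.mem_symmDiff, ← cat_single, mem_cat_right]

theorem below_cat {k k' n : ℕ} {A : Pat k} {A' : Pat k'} (h : Below n A) (h' : Below n A') :
    Below n (cat A A') := fun p hp => by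
  simp only [cat, Finset.mem_union, Finset.mem_image] at hp
  rcases hp with ⟨q, hq, rfl⟩ | ⟨q, hq, rfl⟩
  · exact h q hq
  · exact h' q hq

section

variable {k : ℕ} (hk : 1 ≤ k) (hD : Determined L (comb w) k) {f : Cube → ℝ} (hf : Obs (k + 1) f)
  (horth : ∀ Ψ : Sh k → ℝ, Measurable Ψ → (∀ M, |Ψ M| ≤ 1) →
    ∫ ω, f ω * Ψ (matS (comb w) k ω) ∂L.P = 0)

include hD horth in
theorem integral_det_zero (j : Spc) {A : Pat j.1} (hA : Below k A) :
    ∫ ω, f ω * R j A ω ∂L.P = 0 := by
  obtain ⟨Ψ, hΨ, hb, he⟩ := hD j A hA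
  rw [← horth Ψ hΨ hb]
  refine integral_congr_ae ?_
  filter_upwards [he] with ω hω
  rw [hω]

include hD hf horth in
/-- The derivative identity against a centred function. -/
theorem star0 (j : Spc) {A : Pat j.1} (hA : Below k A) (B : Finset (Fin j.1)) :
    ∫ ω, f ω * R j (flipPat A k B) ω ∂L.P =
      ((k : ℝ) + 1) * ∫ ω, f ω * R j (flipPat A (k + 1) B) ω ∂L.P := by
  obtain ⟨D, hDf⟩ := hf.bdd
  set x := ∫ ω, f ω * R j (flipPat A k B) ω ∂L.P -
      ((k : ℝ) + 1) * ∫ ω, f ω * R j (flipPat A (k + 1) B) ω ∂L.P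
  set M := 4 * ((((k + 1 : ℕ) : ℝ)) + 1) ^ 2 * D
  have key : ∀ m : ℕ, |x| ≤ M * (1 / ((m : ℝ) + 1)) := by
    intro m
    set c : ℚ := 1 / ((m : ℚ) + 1) with hc
    have h := L.deriv_obs hf hDf j c B (below_mono k.le_succ hA)
    rw [integral_det_zero hD horth (j.shift c B) hA, integral_det_zero hD horth j hA,
      Finset.sum_range_succ, Finset.sum_eq_zero fun l hl =>
        integral_det_zero hD horth j (below_flip hA (Finset.mem_range.1 hl) B)] at h
    have hcR : (c : ℝ) = 1 / ((m : ℝ) + 1) := by rw [hc]; push_cast; ring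
    have hcpos : (0 : ℝ) < c := by rw [hcR]; positivity
    simp only [sub_zero, zero_add, zero_sub, abs_neg, abs_mul, abs_of_pos hcpos] at h
    rw [← hcR]
    refine le_of_mul_le_mul_left (le_trans (le_of_eq ?_) (h.trans_eq ?_)) hcpos
    · simp only [x, Nat.cast_add, Nat.cast_one]
    · simp only [M]; ring
  have hlim : Filter.Tendsto (fun m : ℕ => M * (1 / ((m : ℝ) + 1))) Filter.atTop (nhds 0) := by
    simpa using tendsto_one_div_add_atTop_nhds_zero_nat.const_mul M
  exact sub_eq_zero.1 (abs_eq_zero.1 (le_antisymm (ge_of_tendsto' hlim key) (abs_nonneg _)))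

end

/-- Coordinates of the position of a replica. -/
abbrev PCo (k : ℕ) := Fin k × (Σ j : Spc, Finset (Fin j.1))

/-- All pair overlaps of a replica with the base. -/
def pvec (k l : ℕ) (ω : Cube) : CubeOn (PCo k) := fun q => ω ⟨q.2.1, pair q.1 l q.2.2⟩

/-- The position inside the tree. -/
def posOf (w : (Σ j : Spc, Finset (Fin j.1)) → ℝ) {k : ℕ} (z : CubeOn (PCo k)) : Pos k :=
  fun s => max (-1) (min 1 (∑' i, w i * (z (s, i) : ℝ)))

theorem measurable_pvec (k l : ℕ) : Measurable (pvec k l) :=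
  measurable_pi_lambda _ fun _ => measurable_pi_apply _

theorem measurable_posOf (hw : Weights w) {k : ℕ} : Measurable (posOf w (k := k)) := by
  refine measurable_pi_lambda _ fun s => measurable_const.max (measurable_const.min ?_)
  refine Continuous.measurable (continuous_tsum (fun i => by fun_prop) hw.sum.summable fun i z => ?_)
  rw [Real.norm_eq_abs, abs_mul, abs_of_pos (hw.pos i)]
  exact mul_le_of_le_one_right (hw.pos i).le (abs_le.2 (z (s, i)).2)

theorem posOf_pvec {k l : ℕ} (ω : Cube) : posOf w (pvec k l ω) = posK (comb w) k l ω := by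
  funext s
  simp only [posOf, pvec, posK, comb, pair_comm (s : ℕ) l, R]

/-- A product of pair overlaps is one multi-overlap of a larger species. -/
def Good (L : Lim) {k : ℕ} (g : C(CubeOn (PCo k), ℝ)) : Prop :=
  ∃ (J : Spc) (A' : Pat J.1) (B' : Finset (Fin J.1)), Below k A' ∧
    ∀ l, (fun ω => g (pvec k l ω)) =ᵐ[L.P] R J (flipPat A' l B')

theorem good_closure {k : ℕ} {g : C(CubeOn (PCo k), ℝ)}
    (hg : g ∈ Submonoid.closure (range (coordC (ι := PCo k)))) : Good L g := by
  induction hg using Submonoid.closure_induction with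
  | mem g hg =>
    obtain ⟨⟨s, j, B⟩, rfl⟩ := hg
    exact ⟨j, single s B, B, below_single s.2 B, fun l => Filter.EventuallyEq.rfl⟩
  | one =>
    refine ⟨Spc.free 0, ∅, ∅, fun p hp => absurd hp (Finset.notMem_empty p), fun l => ?_⟩
    have he : flipPat (∅ : Pat (Spc.free 0).1) l ∅ = ∅ := by simp [flipPat, single]
    filter_upwards [L.one (Spc.free 0)] with ω hω
    rw [he, hω]
    rfl
  | mul g g' _ _ hg hg' =>
    obtain ⟨J, A, B, hA, h⟩ := hg
    obtain ⟨J', A', B', hA', h'⟩ := hg'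
    refine ⟨J.app J', cat A A', catPos B B', below_cat hA hA', fun l => ?_⟩
    have hm := L.mult J J' (flipPat A l B) (flipPat A' l B')
    rw [← flipPat_cat] at hm
    filter_upwards [h l, h' l, hm] with ω h1 h2 h3
    exact (congrArg₂ (· * ·) h1 h2).trans h3.symm

/-- A finite measure with a bounded density, seen through a map. -/
def denMap {β : Type*} [MeasurableSpace β] (P : Measure Cube) (Y : Cube → β) (F : Cube → ℝ) :
    Measure β :=
  (P.withDensity fun ω => ((F ω).toNNReal : ℝ≥0∞)).map Y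

section

variable {β : Type*} [MeasurableSpace β] {Y : Cube → β} {F : Cube → ℝ} {C : ℝ}

theorem finite_denMap (hC : ∀ ω, |F ω| ≤ C) : IsFiniteMeasure (denMap L.P Y F) := by
  have : IsFiniteMeasure (L.P.withDensity fun ω => ((F ω).toNNReal : ℝ≥0∞)) :=
    isFiniteMeasure_withDensity (ne_top_of_le_ne_top (b := ENNReal.ofReal C) ENNReal.ofReal_ne_top
      ((lintegral_mono (g := fun _ => ENNReal.ofReal C) fun ω =>
        ENNReal.ofReal_le_ofReal ((le_abs_self _).trans (hC ω))).trans_eq (by simp)))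
  exact Measure.isFiniteMeasure_map _ Y

theorem integral_denMap_sub (hY : Measurable Y) (hF : Measurable F) (hC : ∀ ω, |F ω| ≤ C)
    {g : β → ℝ} (hg : Measurable g) {D : ℝ} (hg1 : ∀ x, |g x| ≤ D) :
    ∫ x, g x ∂denMap L.P Y F - ∫ x, g x ∂denMap L.P Y (fun ω => -F ω) =
      ∫ ω, F ω * g (Y ω) ∂L.P := by
  have e : ∀ G : Cube → ℝ, Measurable G → ∫ x, g x ∂denMap L.P Y G =
      ∫ ω, ((G ω).toNNReal : ℝ) * g (Y ω) ∂L.P := by
    intro G hG
    rw [denMap, integral_map hY.aemeasurable hg.aestronglyMeasurable,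
      integral_withDensity_eq_integral_smul hG.real_toNNReal]
    rfl
  rw [e F hF, e (fun ω => -F ω) hF.neg, ← integral_sub]
  · refine integral_congr_ae (ae_of_all _ fun ω => ?_)
    dsimp only
    rw [← sub_mul, Real.coe_toNNReal', Real.coe_toNNReal', max_zero_sub_max_neg_zero_eq_self]
  all_goals
    refine Integrable.of_bound (by fun_prop) (C * D) (ae_of_all _ fun ω => ?_)
    rw [Real.norm_eq_abs, abs_mul]
    refine mul_le_mul ?_ (hg1 _) (abs_nonneg _) ((abs_nonneg _).trans (hC ω))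
    rw [NNReal.abs_eq, Real.coe_toNNReal']
    exact max_le ((le_abs_self _).trans (by simpa using hC ω)) ((abs_nonneg _).trans (hC ω))

end

/-- **The centred identity at a prescribed position.** -/
theorem centred (hw : Weights w) {k : ℕ} (hD : Determined L (comb w) k) {f : Cube → ℝ}
    (hf : Obs (k + 1) f)
    (horth : ∀ Ψ : Sh k → ℝ, Measurable Ψ → (∀ M, |Ψ M| ≤ 1) →
      ∫ ω, f ω * Ψ (matS (comb w) k ω) ∂L.P = 0)
    {j : Spc} {A : Pat j.1} (hA : Below k A) (B : Finset (Fin j.1))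
    {T : Set (Pos k)} (hT : MeasurableSet T) :
    ∫ ω, f ω * (T.indicator (fun _ => 1) (posK (comb w) k k ω) * R j (flipPat A k B) ω) ∂L.P =
      ((k : ℝ) + 1) * ∫ ω, f ω *
        (T.indicator (fun _ => 1) (posK (comb w) k (k + 1) ω) * R j (flipPat A (k + 1) B) ω) ∂L.P := by
  obtain ⟨D, hDf⟩ := hf.bdd
  have hfm : Measurable f := Fac.measurable hf.fac
  set F1 : Cube → ℝ := fun ω => f ω * R j (flipPat A k B) ω
  set F2 : Cube → ℝ := fun ω => ((k : ℝ) + 1) * (f ω * R j (flipPat A (k + 1) B) ω)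
  have hm1 : Measurable F1 := hfm.mul (measurable_R _ _)
  have hm2 : Measurable F2 := (hfm.mul (measurable_R _ _)).const_mul _
  have hb : ∀ A' ω, |f ω * R j A' ω| ≤ D := fun A' ω => by
    rw [abs_mul]
    exact le_trans (mul_le_of_le_one_right (abs_nonneg _) (abs_R_le _ _ _)) (hDf ω)
  have hb1 : ∀ ω, |F1 ω| ≤ D := fun ω => hb _ ω
  have hb2 : ∀ ω, |F2 ω| ≤ ((k : ℝ) + 1) * D := fun ω => by
    rw [abs_mul, abs_of_nonneg (by positivity)]
    exact mul_le_mul_of_nonneg_left (hb _ ω) (by positivity)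
  have hb1' : ∀ ω, |(-F1 ω)| ≤ D := fun ω => by rw [abs_neg]; exact hb1 ω
  have hb2' : ∀ ω, |(-F2 ω)| ≤ ((k : ℝ) + 1) * D := fun ω => by rw [abs_neg]; exact hb2 ω
  set a := denMap L.P (pvec k k) F1
  set a' := denMap L.P (pvec k k) fun ω => -F1 ω
  set b := denMap L.P (pvec k (k + 1)) F2
  set b' := denMap L.P (pvec k (k + 1)) fun ω => -F2 ω
  have : IsFiniteMeasure a := finite_denMap hb1
  have : IsFiniteMeasure a' := finite_denMap hb1'
  have : IsFiniteMeasure b := finite_denMap hb2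
  have : IsFiniteMeasure b' := finite_denMap hb2'
  have hdiff : ∀ g : CubeOn (PCo k) → ℝ, Measurable g → ∀ D', (∀ x, |g x| ≤ D') →
      ∫ x, g x ∂(a + b') - ∫ x, g x ∂(a' + b) =
        ∫ ω, F1 ω * g (pvec k k ω) ∂L.P - ∫ ω, F2 ω * g (pvec k (k + 1) ω) ∂L.P := by
    intro g hg D' hD'
    have hi : ∀ μ : Measure (CubeOn (PCo k)), IsFiniteMeasure μ → Integrable g μ := fun μ _ =>
      Integrable.of_bound hg.aestronglyMeasurable D' (ae_of_all _ hD')
    rw [integral_add_measure (hi a inferInstance) (hi b' inferInstance),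
      integral_add_measure (hi a' inferInstance) (hi b inferInstance),
      ← integral_denMap_sub (L := L) (measurable_pvec k k) hm1 hb1 hg hD',
      ← integral_denMap_sub (L := L) (measurable_pvec k (k + 1)) hm2 hb2 hg hD']
    ring
  have heq : a + b' = a' + b := by
    refine ext_of_moments fun g hg => sub_eq_zero.1 ?_
    rw [hdiff g g.continuous.measurable ‖g‖ fun x => g.norm_coe_le_norm x]
    obtain ⟨J, A', B', hA', he⟩ := good_closure (L := L) hg
    have h := star0 hD hf horth (J.app j) (below_cat hA' hA) (catPos B' B)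
    have conv : ∀ l, ∫ ω, f ω * R j (flipPat A l B) ω * g (pvec k l ω) ∂L.P =
        ∫ ω, f ω * R (J.app j) (flipPat (cat A' A) l (catPos B' B)) ω ∂L.P := fun l => by
      refine integral_congr_ae ?_
      have hm := L.mult J j (flipPat A' l B') (flipPat A l B)
      filter_upwards [he l, hm] with ω h1 h2'
      have h2 : R (J.app j) (flipPat (cat A' A) l (catPos B' B)) ω =
          R J (flipPat A' l B') ω * R j (flipPat A l B) ω :=
        (congrArg (fun P => R (J.app j) P ω) (flipPat_cat l A' A B' B)).trans h2'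
      show f ω * R j (flipPat A l B) ω * g (pvec k l ω) = f ω * _
      rw [h1, h2]; ring
    rw [sub_eq_zero, show (fun ω => F2 ω * g (pvec k (k + 1) ω)) = fun ω =>
      ((k : ℝ) + 1) * (f ω * R j (flipPat A (k + 1) B) ω * g (pvec k (k + 1) ω)) from
      funext fun ω => mul_assoc _ _ _, integral_const_mul, conv, conv]
    exact h
  set g : CubeOn (PCo k) → ℝ := (posOf w ⁻¹' T).indicator fun _ => 1
  have hg : Measurable g := measurable_const.indicator (measurable_posOf hw hT)
  have h := hdiff g hg 1 fun x => by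
    by_cases hx : x ∈ posOf w ⁻¹' T <;> simp [g, hx]
  rw [heq, sub_self] at h
  have hgp : ∀ l ω, g (pvec k l ω) = T.indicator (fun _ => 1) (posK (comb w) k l ω) := fun l ω => by
    rw [← posOf_pvec (w := w) ω]
    by_cases hx : posOf w (pvec k l ω) ∈ T <;> simp [g, hx]
  simp only [hgp] at h
  rw [← integral_const_mul]
  refine Eq.trans ?_ ((sub_eq_zero.1 h.symm).trans ?_)
  · exact integral_congr_ae (ae_of_all _ fun ω => by simp only [F1]; ring)
  · exact integral_congr_ae (ae_of_all _ fun ω => by simp only [F2]; ring)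

end

end Vale.Agent.P168.Induct
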