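import Mathlib

/-!
P168, induction core (helper27): the abstract setting of one induction step.

A law of arrays `(X, A)`, where `X` is the overlap matrix of the replicas and `A l` is the
multi-overlap of the base replicas `0, …, k-1` with replica `l`.
-/

namespace Vale.Agent.P168.Induct

open MeasureTheory ProbabilityTheory Set
open scoped ENNReal

noncomputable section

/-- Overlaps and multi-overlaps of all replicas. -/
abbrev Arr := (ℕ → ℕ → ℝ) × (ℕ → ℝ)

/-- Shapes of the base replicas. -/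
abbrev Sh (k : ℕ) := Fin k → Fin k → ℝ

/-- Positions relative to the base replicas. -/
abbrev Pos (k : ℕ) := Fin k → ℝ

variable {k n : ℕ}

/-- The data of the replicas below `n`. -/
def cut (n : ℕ) (z : Arr) : Arr :=
  (fun i j => if i < n ∧ j < n then z.1 i j else 0, fun i => if i < n then z.2 i else 0)

/-- Shape of the base. -/
def xS (k : ℕ) (z : Arr) : Sh k := fun s s' => z.1 s s'

/-- Position of replica `l`. -/
def pos (k : ℕ) (l : ℕ) (z : Arr) : Pos k := fun s => z.1 l s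

/-- Shape and position. -/
def zed (k : ℕ) (l : ℕ) (z : Arr) : Sh k × Pos k := (xS k z, pos k l z)

/-- Relabelling of the replicas. -/
def perm (σ : Equiv.Perm ℕ) (z : Arr) : Arr := (fun i j => z.1 (σ i) (σ j), fun i => z.2 (σ i))

@[fun_prop]
theorem measurable_X (i j : ℕ) : Measurable fun z : Arr => z.1 i j := by fun_prop

@[fun_prop]
theorem measurable_A (i : ℕ) : Measurable fun z : Arr => z.2 i := by fun_prop

@[fun_prop]
theorem measurable_cut (n : ℕ) : Measurable (cut n) := by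
  refine Measurable.prodMk (measurable_pi_lambda _ fun i => measurable_pi_lambda _ fun j => ?_)
    (measurable_pi_lambda _ fun i => ?_)
  · by_cases h : i < n ∧ j < n <;> simp [h] <;> fun_prop
  · by_cases h : i < n <;> simp [h] <;> fun_prop

@[fun_prop]
theorem measurable_xS (k : ℕ) : Measurable (xS k) :=
  measurable_pi_lambda _ fun _ => measurable_pi_lambda _ fun _ => measurable_X _ _

@[fun_prop]
theorem measurable_pos (k l : ℕ) : Measurable (pos k l) :=
  measurable_pi_lambda _ fun _ => measurable_X _ _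

@[fun_prop]
theorem measurable_zed (k l : ℕ) : Measurable (zed k l) :=
  (measurable_xS k).prodMk (measurable_pos k l)

@[fun_prop]
theorem measurable_perm (σ : Equiv.Perm ℕ) : Measurable (perm σ) :=
  (measurable_pi_lambda _ fun _ => measurable_pi_lambda _ fun _ => measurable_X _ _).prodMk
    (measurable_pi_lambda _ fun _ => measurable_A _)

theorem cut_X {i j : ℕ} (hi : i < n) (hj : j < n) (z : Arr) : (cut n z).1 i j = z.1 i j :=
  if_pos ⟨hi, hj⟩

theorem cut_A {i : ℕ} (hi : i < n) (z : Arr) : (cut n z).2 i = z.2 i := if_pos hi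

theorem cut_xS (h : k ≤ n) (z : Arr) : xS k (cut n z) = xS k z :=
  funext fun s => funext fun s' => cut_X (s.2.trans_le h) (s'.2.trans_le h) z

theorem cut_pos {l : ℕ} (h : k ≤ n) (hl : l < n) (z : Arr) : pos k l (cut n z) = pos k l z :=
  funext fun s => cut_X hl (s.2.trans_le h) z

theorem cut_zed {l : ℕ} (h : k ≤ n) (hl : l < n) (z : Arr) : zed k l (cut n z) = zed k l z :=
  Prod.ext (cut_xS h z) (cut_pos h hl z)

theorem cut_cut {m : ℕ} (h : m ≤ n) (z : Arr) : cut m (cut n z) = cut m z := by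
  refine Prod.ext (funext fun i => funext fun j => ?_) (funext fun i => ?_)
  · by_cases hij : i < m ∧ j < m
    · rw [cut_X hij.1 hij.2, cut_X hij.1 hij.2, cut_X (hij.1.trans_le h) (hij.2.trans_le h)]
    · simp [cut, hij]
  · by_cases hi : i < m
    · rw [cut_A hi, cut_A hi, cut_A (hi.trans_le h)]
    · simp [cut, hi]

theorem swap_base {i j s : ℕ} (hi : k ≤ i) (hj : k ≤ j) (hs : s < k) : Equiv.swap i j s = s :=
  Equiv.swap_apply_of_ne_of_ne (by omega) (by omega)

theorem perm_xS {i j : ℕ} (hi : k ≤ i) (hj : k ≤ j) (z : Arr) :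
    xS k (perm (Equiv.swap i j) z) = xS k z := by
  funext s s'
  simp [xS, perm, swap_base hi hj s.2, swap_base hi hj s'.2]

theorem perm_pos {i j : ℕ} (hi : k ≤ i) (hj : k ≤ j) (l : ℕ) (z : Arr) :
    pos k l (perm (Equiv.swap i j) z) = pos k (Equiv.swap i j l) z := by
  funext s
  simp [pos, perm, swap_base hi hj s.2]

/-- The hypotheses of one induction step. -/
structure Hyp (k : ℕ) where
  P : Measure Arr
  prob : IsProbabilityMeasure P
  kpos : 0 < k
  ν : Measure ℝ
  νprob : IsProbabilityMeasure ν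
  γ : Kernel (Sh k) (Pos k)
  γprob : IsMarkovKernel γ
  L : ℝ → ℝ
  C : ℝ
  lip : ∀ x y, |L x - L y| ≤ C * |x - y|
  bddL : ∀ x, |L x| ≤ 1
  symm : ∀ᵐ z ∂P, ∀ i j : ℕ, z.1 i j = z.1 j i
  ultra : ∀ᵐ z ∂P, ∀ i j l : ℕ, i ≠ j → j ≠ l → i ≠ l → min (z.1 i l) (z.1 j l) ≤ z.1 i j
  bddA : ∀ᵐ z ∂P, ∀ i, |z.2 i| ≤ 1
  exch : ∀ i j, k ≤ i → k ≤ j → P.map (perm (Equiv.swap i j)) = P
  /-- Strong Ghirlanda–Guerra identities for the position of a new replica. -/
  sgg : ∀ n, k ≤ n → ∀ B : Set Arr, MeasurableSet B → ∀ T : Set (Pos k), MeasurableSet T →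
    (n : ℝ≥0∞) * P (cut n ⁻¹' B ∩ pos k n ⁻¹' T) =
      ∑ l ∈ Finset.Ico k n, P (cut n ⁻¹' B ∩ pos k l ⁻¹' T)
        + (k : ℝ≥0∞) * ∫⁻ z in cut n ⁻¹' B, γ (xS k z) T ∂P
  /-- Ghirlanda–Guerra identities for one overlap of a new replica. -/
  gg1 : ∀ n, k ≤ n → ∀ l < n, ∀ B : Set Arr, MeasurableSet B → ∀ I : Set ℝ, MeasurableSet I →
    (n : ℝ≥0∞) * P (cut n ⁻¹' B ∩ (fun z => z.1 n l) ⁻¹' I) =
      P (cut n ⁻¹' B) * ν I
        + ∑ l' ∈ (Finset.range n).erase l, P (cut n ⁻¹' B ∩ (fun z => z.1 l l') ⁻¹' I)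
  /-- Positive semidefiniteness. -/
  psd : ∀ᵐ z ∂P, ∀ (s : Finset ℕ) (x : ℕ → ℝ), (∀ i ∈ s, k ≤ i) →
    (∑ i ∈ s, x i * z.2 i) ^ 2 ≤
      ∑ i ∈ s, ∑ j ∈ s, x i * x j * (if i = j then 1 else L (z.1 i j))
  /-- The centred derivative identity with one new replica. -/
  star : ∀ u : Arr → ℝ, Measurable u → (∃ c, ∀ z, |u z| ≤ c) →
    (∀ v : Sh k → ℝ, Measurable v → (∃ c, ∀ x, |v x| ≤ c) →
      ∫ z, u (cut (k + 1) z) * v (xS k z) ∂P = 0) →
    ∀ T : Set (Pos k), MeasurableSet T →
      ∫ z, u (cut (k + 1) z) * (T.indicator (fun _ => 1) (pos k k z) * z.2 k) ∂P =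
        (k + 1 : ℝ) *
          ∫ z, u (cut (k + 1) z) * (T.indicator (fun _ => 1) (pos k (k + 1) z) * z.2 (k + 1)) ∂P

namespace Hyp

variable (H : Hyp k)

instance : IsProbabilityMeasure H.P := H.prob
instance : IsProbabilityMeasure H.ν := H.νprob
instance : IsMarkovKernel H.γ := H.γprob

/-- The kernel of positions at a cut array. -/
def γz : Kernel Arr (Pos k) := H.γ.comap (xS k) (measurable_xS k)

instance : IsMarkovKernel H.γz := Kernel.IsMarkovKernel.comap _ _

theorem sgg_measure (n : ℕ) (hn : k ≤ n) :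
    (n : ℝ≥0∞) • H.P.map (fun z => (cut n z, pos k n z)) =
      ∑ l ∈ Finset.Ico k n, H.P.map (fun z => (cut n z, pos k l z))
        + (k : ℝ≥0∞) • (H.P.map (cut n) ⊗ₘ H.γz) := by
  have : IsProbabilityMeasure (H.P.map (fun z => (cut n z, pos k n z))) :=
    Measure.isProbabilityMeasure_map (by fun_prop)
  have : IsProbabilityMeasure (H.P.map (cut n)) := Measure.isProbabilityMeasure_map (by fun_prop)
  have := Measure.smul_finite (H.P.map fun z => (cut n z, pos k n z))
    (ENNReal.natCast_ne_top n)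
  refine Measure.ext_prod fun {s t} hs ht => ?_
  simp only [Measure.smul_apply, Measure.add_apply, Measure.coe_finsetSum, Finset.sum_apply,
    smul_eq_mul]
  rw [Measure.map_apply (by fun_prop) (hs.prod ht), Measure.compProd_apply_prod hs ht,
    Finset.sum_congr rfl fun l _ => Measure.map_apply (by fun_prop) (hs.prod ht)]
  rw [setLIntegral_map hs (Kernel.measurable_coe _ ht) (by fun_prop)]
  refine (H.sgg n hn s hs t ht).trans ?_
  congr 2
  refine setLIntegral_congr_fun (measurable_cut n hs) fun z _ => ?_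
  simp [γz, cut_xS hn]

theorem lint_sgg (n : ℕ) (hn : k ≤ n) {Φ : Arr × Pos k → ℝ≥0∞} (hΦ : Measurable Φ) :
    (n : ℝ≥0∞) * ∫⁻ z, Φ (cut n z, pos k n z) ∂H.P =
      ∑ l ∈ Finset.Ico k n, ∫⁻ z, Φ (cut n z, pos k l z) ∂H.P
        + (k : ℝ≥0∞) * ∫⁻ z, ∫⁻ x, Φ (cut n z, x) ∂H.γ (xS k z) ∂H.P := by
  have : IsProbabilityMeasure (H.P.map (cut n)) := Measure.isProbabilityMeasure_map (by fun_prop)
  have h := congrArg (fun μ => ∫⁻ w, Φ w ∂μ) (H.sgg_measure n hn)
  simp only [lintegral_smul_measure, lintegral_add_measure, lintegral_finsetSum_measure,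
    Measure.lintegral_compProd hΦ, smul_eq_mul] at h
  rw [lintegral_map hΦ (by fun_prop), lintegral_map (hΦ.lintegral_kernel_prod_right') (by fun_prop)] at h
  simp only [lintegral_map hΦ ((measurable_cut n).prodMk (measurable_pos k _))] at h
  refine h.trans ?_
  simp [γz, cut_xS hn]

/-- Strong identities for bounded real functions, at the first new replica. -/
theorem int_sgg {Φ : Arr × Pos k → ℝ} (hΦ : Measurable Φ) {c : ℝ} (hc : ∀ w, |Φ w| ≤ c) :
    (k + 1 : ℝ) * ∫ z, Φ (cut (k + 1) z, pos k (k + 1) z) ∂H.P =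
      ∫ z, Φ (cut (k + 1) z, pos k k z) ∂H.P
        + (k : ℝ) * ∫ z, ∫ x, Φ (cut (k + 1) z, x) ∂H.γ (xS k z) ∂H.P := by
  have : IsProbabilityMeasure (H.P.map (cut (k + 1))) :=
    Measure.isProbabilityMeasure_map (by fun_prop)
  have hint : ∀ (μ : Measure (Arr × Pos k)) [IsFiniteMeasure μ], Integrable Φ μ := fun μ _ =>
    Integrable.of_bound hΦ.aestronglyMeasurable c (ae_of_all _ hc)
  have h := congrArg (fun μ => ∫ w, Φ w ∂μ) (H.sgg_measure (k + 1) k.le_succ)
  rw [Nat.Ico_succ_singleton, Finset.sum_singleton] at h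
  have := Measure.smul_finite (H.P.map (cut (k + 1)) ⊗ₘ H.γz) (ENNReal.natCast_ne_top k)
  simp only [integral_smul_measure, ENNReal.toReal_natCast, smul_eq_mul] at h
  rw [integral_add_measure (hint _) (hint _), integral_smul_measure,
    Measure.integral_compProd (hint _), ENNReal.toReal_natCast, smul_eq_mul,
    integral_map (by fun_prop) hΦ.aestronglyMeasurable,
    integral_map (by fun_prop) hΦ.aestronglyMeasurable,
    integral_map (by fun_prop) (hΦ.stronglyMeasurable.integral_kernel_prod_right'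
      ).aestronglyMeasurable] at h
  push_cast at h
  refine h.trans ?_
  simp [γz, cut_xS k.le_succ]

theorem gg1_measure (n : ℕ) (hn : k ≤ n) (l : ℕ) (hl : l < n) :
    (n : ℝ≥0∞) • H.P.map (fun z => (cut n z, z.1 n l)) =
      (H.P.map (cut n)).prod H.ν
        + ∑ l' ∈ (Finset.range n).erase l, H.P.map (fun z => (cut n z, z.1 l l')) := by
  have : IsProbabilityMeasure (H.P.map (fun z => (cut n z, z.1 n l))) :=
    Measure.isProbabilityMeasure_map (by fun_prop)
  have : IsProbabilityMeasure (H.P.map (cut n)) := Measure.isProbabilityMeasure_map (by fun_prop)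
  have := Measure.smul_finite (H.P.map fun z => (cut n z, z.1 n l)) (ENNReal.natCast_ne_top n)
  refine Measure.ext_prod fun {s t} hs ht => ?_
  simp only [Measure.smul_apply, Measure.add_apply, Measure.coe_finsetSum, Finset.sum_apply,
    smul_eq_mul]
  rw [Measure.map_apply (by fun_prop) (hs.prod ht), Measure.prod_prod,
    Measure.map_apply (by fun_prop) hs,
    Finset.sum_congr rfl fun l' _ => Measure.map_apply (by fun_prop) (hs.prod ht)]
  exact H.gg1 n hn l hl s hs t ht

theorem lint_gg1 (n : ℕ) (hn : k ≤ n) (l : ℕ) (hl : l < n) {Φ : Arr × ℝ → ℝ≥0∞}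
    (hΦ : Measurable Φ) :
    (n : ℝ≥0∞) * ∫⁻ z, Φ (cut n z, z.1 n l) ∂H.P =
      ∫⁻ z, ∫⁻ x, Φ (cut n z, x) ∂H.ν ∂H.P
        + ∑ l' ∈ (Finset.range n).erase l, ∫⁻ z, Φ (cut n z, z.1 l l') ∂H.P := by
  have h := congrArg (fun μ => ∫⁻ w, Φ w ∂μ) (H.gg1_measure n hn l hl)
  simp only [lintegral_smul_measure, lintegral_add_measure, lintegral_finsetSum_measure,
    lintegral_prod _ hΦ.aemeasurable, smul_eq_mul] at h
  rw [lintegral_map hΦ (by fun_prop), lintegral_map (hΦ.lintegral_prod_right') (by fun_prop)] at h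
  simp only [lintegral_map hΦ ((measurable_cut n).prodMk (measurable_X _ _))] at h
  exact h

theorem lint_swap {i j : ℕ} (hi : k ≤ i) (hj : k ≤ j) {f : Arr → ℝ≥0∞} (hf : Measurable f) :
    ∫⁻ z, f (perm (Equiv.swap i j) z) ∂H.P = ∫⁻ z, f z ∂H.P := by
  rw [← lintegral_map hf (measurable_perm _), H.exch i j hi hj]

end Hyp

end

end Vale.Agent.P168.Induct
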