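import Vale.Agent.P168.Induct.Atom

/-!
P168, induction (helper27): off the atoms the residual vanishes, hence everywhere.
-/

namespace Vale.Agent.P168.Induct

open MeasureTheory ProbabilityTheory Set
open scoped ENNReal

noncomputable section

variable {k : ℕ}

/-- A cell of the grid of mesh `1 / N`. -/
def gridCell (N : ℕ) (c : Fin k → ℤ) : Set (Pos k) := {p | ∀ s, ⌊p s * N⌋ = c s}

theorem measurableSet_gridCell (N : ℕ) (c : Fin k → ℤ) : MeasurableSet (gridCell (k := k) N c) := by
  unfold gridCell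
  exact measurableSet_forall fun s => measurableSet_eq_fun (by fun_prop) measurable_const

theorem gridCell_close {N : ℕ} (hN : 0 < N) {c : Fin k → ℤ} {p q : Pos k} (hp : p ∈ gridCell N c)
    (hq : q ∈ gridCell N c) (s : Fin k) : |p s - q s| ≤ 1 / N := by
  have hN' : (0 : ℝ) < N := Nat.cast_pos.2 hN
  have h := (Int.abs_sub_lt_one_of_floor_eq_floor ((hp s).trans (hq s).symm)).le
  rw [← sub_mul, abs_mul, abs_of_pos hN'] at h
  exact (le_div_iff₀ hN').2 h

namespace Hyp

variable (H : Hyp k)

/-- Positions in a set which are not atoms. -/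
def freeSet (c : Set (Pos k)) : Set (Sh k × Pos k) := {x | H.mass x = 0 ∧ x.2 ∈ c}

/-- Conditional mass of `freeSet c`. -/
def freeMass (c : Set (Pos k)) (x : Sh k) : ℝ≥0∞ := H.γ x (Prod.mk x ⁻¹' H.freeSet c)

/-- `m` replicas at distinct free positions in `c`. -/
def freeKids (c : Set (Pos k)) (m : ℕ) : Set Arr :=
  {z | (∀ l : ℕ, k ≤ l ∧ l < k + m → zed k l z ∈ H.freeSet c) ∧
    ∀ a b : ℕ, (k ≤ a ∧ a < k + m) → (k ≤ b ∧ b < k + m) → a ≠ b → pos k a z ≠ pos k b z}

variable {c : Set (Pos k)} (hc : MeasurableSet c)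

include hc in
theorem measurableSet_freeSet : MeasurableSet (H.freeSet c) :=
  (measurableSet_eq_fun (by fun_prop) measurable_const).inter (measurable_snd hc)

include hc in
theorem measurable_freeMass : Measurable (H.freeMass c) :=
  Kernel.measurable_kernel_prodMk_left (H.measurableSet_freeSet hc)

include hc in
theorem measurableSet_freeKids (m : ℕ) : MeasurableSet (H.freeKids c m) := by
  unfold freeKids
  exact (measurableSet_forall fun l => measurableSet_imp
      (measurable_zed k l (H.measurableSet_freeSet hc))).inter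
    (measurableSet_forall fun a => measurableSet_forall fun b => measurableSet_imp
      (measurableSet_imp (measurableSet_imp (measurableSet_pos_eq a b).compl)))

theorem mem_freeKids_cut {m n : ℕ} (hm : 1 ≤ m) (hn : k + m ≤ n) (z : Arr) :
    cut n z ∈ H.freeKids c m ↔ z ∈ H.freeKids c m := by
  unfold freeKids
  simp only [mem_ofPred_eq]
  refine and_congr (forall_congr' fun l => imp_congr_right fun hl => ?_)
    (forall_congr' fun a => forall_congr' fun b => imp_congr_right fun ha => imp_congr_right fun hb =>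
      imp_congr_right fun _ => ?_)
  · rw [cut_zed (show k ≤ n by omega) (show l < n by omega)]
  · rw [cut_pos (show k ≤ n by omega) (show a < n by omega),
      cut_pos (show k ≤ n by omega) (show b < n by omega)]

theorem freeMass_diff (x : Sh k) {ι : Type*} (s : Finset ι) (p : ι → Pos k)
    (hp : ∀ i ∈ s, H.mass (x, p i) = 0) :
    H.γ x {q | (x, q) ∈ H.freeSet c ∧ ∀ i ∈ s, q ≠ p i} = H.freeMass c x := by
  refine measure_congr (Filter.EventuallyEq.symm ?_)
  have h0 : H.γ x (⋃ i ∈ s, {p i}) = 0 := (measure_biUnion_null_iff s.countable_toSet).2 hp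
  filter_upwards [measure_eq_zero_iff_ae_notMem.1 h0] with q hq
  exact propext ⟨fun h => ⟨h, fun i hi he => hq (mem_biUnion hi he)⟩, fun h => h.1⟩

include hc in
theorem freeKids_step {m : ℕ} (hm : 1 ≤ m) {B : Set Arr} (hB : MeasurableSet B) :
    H.P (cut (k + m) ⁻¹' B ∩ H.freeKids c (m + 1)) =
      ∫⁻ z in cut (k + m) ⁻¹' B ∩ H.freeKids c m,
        (k : ℝ≥0∞) * H.freeMass c (xS k z) / ((k + m : ℕ) : ℝ≥0∞) ∂H.P := by
  set n := k + m with hn
  have hkn : k ≤ n := by omega
  set B' := B ∩ H.freeKids c m with hB'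
  have hB'm : MeasurableSet B' := hB.inter (H.measurableSet_freeKids hc m)
  set R : Set (Arr × Pos k) := {w | (xS k w.1, w.2) ∈ H.freeSet c ∧
    ∀ i ∈ Finset.Ico k n, w.2 ≠ pos k i w.1} with hR
  have hRm : MeasurableSet R := by
    refine ((H.measurableSet_freeSet hc).preimage (by fun_prop)).inter ?_
    refine measurableSet_forall fun i => measurableSet_imp ?_
    have : {w : Arr × Pos k | w.2 ≠ pos k i w.1} = {w | ∀ s, w.2 s = pos k i w.1 s}ᶜ := by
      ext w; simp [funext_iff]
    rw [this]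
    exact (measurableSet_forall fun s => measurableSet_eq_fun (by fun_prop) (by fun_prop)).compl
  set Φ : Arr × Pos k → ℝ≥0∞ := ({w : Arr × Pos k | w.1 ∈ B'} ∩ R).indicator 1 with hΦ
  have hΦm : Measurable Φ := measurable_one.indicator ((measurable_fst hB'm).inter hRm)
  have hS : cut n ⁻¹' B ∩ H.freeKids c m = cut n ⁻¹' B' := by
    ext z; simp [hB', H.mem_freeKids_cut hm (n := n) (by omega)]
  rw [hS]
  set S := cut n ⁻¹' B'
  have hSm : MeasurableSet S := measurable_cut n hB'm
  have hRiff : ∀ z x, ((cut n z, x) ∈ R ↔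
      (xS k z, x) ∈ H.freeSet c ∧ ∀ i ∈ Finset.Ico k n, x ≠ pos k i z) := fun z x => by
    simp only [hR, mem_ofPred_eq, cut_xS hkn]
    refine and_congr_right fun _ => forall_congr' fun i => imp_congr_right fun hi => ?_
    rw [cut_pos hkn (Finset.mem_Ico.1 hi).2]
  have h := H.lint_sgg n hkn hΦm
  have hEm := (measurable_cut n hB).inter (H.measurableSet_freeKids hc (m + 1))
  have e1 : ∫⁻ z, Φ (cut n z, pos k n z) ∂H.P = H.P (cut n ⁻¹' B ∩ H.freeKids c (m + 1)) := by
    rw [← lintegral_indicator_one hEm]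
    refine lintegral_congr fun z => ?_
    have : (cut n z, pos k n z) ∈ {w : Arr × Pos k | w.1 ∈ B'} ∩ R ↔
        z ∈ cut n ⁻¹' B ∩ H.freeKids c (m + 1) := by
      rw [mem_inter_iff, hRiff]
      simp only [mem_ofPred_eq, hB', mem_inter_iff, mem_preimage,
        H.mem_freeKids_cut hm (n := n) (by omega), Finset.mem_Ico]
      constructor
      · rintro ⟨⟨h1, h2, h3⟩, h4, h5⟩
        refine ⟨h1, fun l hl => ?_, fun a b ha hb hab => ?_⟩
        · rcases Nat.lt_or_ge l n with h | h
          · exact h2 l ⟨hl.1, h⟩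
          · rw [show l = n by omega]; exact h4
        · rcases Nat.lt_or_ge a n with h | h <;> rcases Nat.lt_or_ge b n with h' | h'
          · exact h3 a b ⟨ha.1, h⟩ ⟨hb.1, h'⟩ hab
          · rw [show b = n by omega]; exact (h5 a ⟨ha.1, h⟩).symm
          · rw [show a = n by omega]; exact h5 b ⟨hb.1, h'⟩
          · omega
      · rintro ⟨h1, h2, h3⟩
        exact ⟨⟨h1, fun l hl => h2 l ⟨hl.1, by omega⟩,
          fun a b ha hb hab => h3 a b ⟨ha.1, by omega⟩ ⟨hb.1, by omega⟩ hab⟩,
          h2 n ⟨by omega, by omega⟩, fun i hi => h3 n i ⟨by omega, by omega⟩ ⟨hi.1, by omega⟩ (by omega)⟩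
    by_cases hmem : z ∈ cut n ⁻¹' B ∩ H.freeKids c (m + 1)
    · rw [indicator_of_mem hmem, hΦ, indicator_of_mem (this.2 hmem)]; rfl
    · rw [indicator_of_notMem hmem, hΦ, indicator_of_notMem (mt this.1 hmem)]
  have e2 : ∀ l ∈ Finset.Ico k n, ∫⁻ z, Φ (cut n z, pos k l z) ∂H.P = 0 := fun l hl => by
    refine (lintegral_congr fun z => indicator_of_notMem ?_ _).trans lintegral_zero
    exact fun h => ((hRiff z _).1 h.2).2 l hl rfl
  have e3 : ∫⁻ z, ∫⁻ x, Φ (cut n z, x) ∂H.γ (xS k z) ∂H.P = ∫⁻ z in S, H.freeMass c (xS k z) ∂H.P := by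
    rw [← lintegral_indicator hSm]
    refine lintegral_congr fun z => ?_
    by_cases hz : z ∈ S
    · rw [indicator_of_mem hz]
      have hzc : z ∈ H.freeKids c m := (H.mem_freeKids_cut hm (n := n) (by omega) z).1 hz.2
      rw [← H.freeMass_diff (xS k z) (Finset.Ico k n) (fun i => pos k i z) fun i hi =>
        (hzc.1 i (Finset.mem_Ico.1 hi)).1]
      have hset : MeasurableSet {q : Pos k | (xS k z, q) ∈ H.freeSet c ∧
          ∀ i ∈ Finset.Ico k n, q ≠ pos k i z} := by
        refine (measurable_prodMk_left (H.measurableSet_freeSet hc)).inter ?_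
        exact measurableSet_forall fun i => measurableSet_imp (measurableSet_singleton _).compl
      rw [← lintegral_indicator_one hset]
      refine lintegral_congr fun x => ?_
      have : (cut n z, x) ∈ {w : Arr × Pos k | w.1 ∈ B'} ∩ R ↔
          x ∈ {q : Pos k | (xS k z, q) ∈ H.freeSet c ∧ ∀ i ∈ Finset.Ico k n, q ≠ pos k i z} :=
        ⟨fun h => (hRiff z x).1 h.2, fun h => ⟨hz, (hRiff z x).2 h⟩⟩
      by_cases hmem : x ∈ {q : Pos k | (xS k z, q) ∈ H.freeSet c ∧ ∀ i ∈ Finset.Ico k n, q ≠ pos k i z}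
      · rw [indicator_of_mem hmem, hΦ, indicator_of_mem (this.2 hmem)]; rfl
      · rw [indicator_of_notMem hmem, hΦ, indicator_of_notMem (mt this.1 hmem)]
    · rw [indicator_of_notMem hz]
      exact (lintegral_congr fun x => indicator_of_notMem (fun h => hz h.1) _).trans lintegral_zero
  rw [e1, e3, Finset.sum_eq_zero e2, zero_add] at h
  have hn0 : (n : ℝ≥0∞) ≠ 0 := Nat.cast_ne_zero.2 (by have := H.kpos; omega)
  have hfm : Measurable fun z => H.freeMass c (xS k z) :=
    (H.measurable_freeMass hc).comp (measurable_xS k)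
  simp only [div_eq_mul_inv]
  rw [lintegral_mul_const _ (hfm.const_mul _), lintegral_const_mul _ hfm, ← h, ← div_eq_mul_inv,
    mul_div_assoc]
  exact (ENNReal.mul_div_cancel hn0 (ENNReal.natCast_ne_top _)).symm

include hc in
/-- A free position lies where the free mass is positive. -/
theorem freeMass_pos : ∀ᵐ z ∂H.P, zed k k z ∈ H.freeSet c → H.freeMass c (xS k z) ≠ 0 := by
  set R : Set (Arr × Pos k) :=
    {w | (xS k w.1, w.2) ∈ H.freeSet c} ∩ {w | H.freeMass c (xS k w.1) = 0}
  have hRm : MeasurableSet R := ((H.measurableSet_freeSet hc).preimage (by fun_prop)).inter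
    (measurableSet_eq_fun ((H.measurable_freeMass hc).comp (by fun_prop)) measurable_const)
  have h := H.lint_sgg k le_rfl (Φ := R.indicator 1) (measurable_one.indicator hRm)
  rw [Finset.Ico_self, Finset.sum_empty, zero_add] at h
  have e : ∫⁻ z, ∫⁻ x, R.indicator 1 (cut k z, x) ∂H.γ (xS k z) ∂H.P = 0 := by
    refine (lintegral_congr fun z => ?_).trans lintegral_zero
    by_cases hz : H.freeMass c (xS k z) = 0
    · refine le_antisymm (le_trans (lintegral_mono
        (g := (Prod.mk (xS k z) ⁻¹' H.freeSet c).indicator 1) fun x => ?_) ?_) zero_le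
      · by_cases hx : (cut k z, x) ∈ R
        · have h1 := hx.1
          simp only [mem_ofPred_eq, cut_xS le_rfl] at h1
          rw [indicator_of_mem hx, indicator_of_mem (show x ∈ _ from h1)]
          rfl
        · rw [indicator_of_notMem hx]; exact zero_le
      · rw [lintegral_indicator_one (measurable_prodMk_left (H.measurableSet_freeSet hc))]
        exact hz.le
    · refine (lintegral_congr fun x => indicator_of_notMem (fun h => hz ?_) _).trans lintegral_zero
      have h1 := h.2
      simpa only [mem_ofPred_eq, cut_xS le_rfl] using h1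
  rw [e, mul_zero, mul_eq_zero, Nat.cast_eq_zero, or_iff_right H.kpos.ne',
    lintegral_eq_zero_iff (f := fun z => R.indicator 1 (cut k z, pos k k z))
      ((measurable_one.indicator hRm).comp (by fun_prop))] at h
  filter_upwards [h] with z hz hmem h0
  have hin : (cut k z, pos k k z) ∈ R := by
    refine ⟨?_, ?_⟩
    · show (xS k (cut k z), pos k k z) ∈ H.freeSet c
      rw [cut_xS le_rfl]; exact hmem
    · show H.freeMass c (xS k (cut k z)) = 0
      rw [cut_xS le_rfl]; exact h0
  simp [indicator_of_mem hin] at hz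

include hc in
theorem free_children {d : ℝ} (hd : ∀ p ∈ c, ∀ q ∈ c, ∀ s, |p s - q s| ≤ d) :
    H.Children (xS k) (H.freeKids c)
      (fun m x => (k : ℝ≥0∞) * H.freeMass c x / ((k + m : ℕ) : ℝ≥0∞))
      (fun z => H.L (topP (pos k k z))) (H.C * d) where
  key_meas := measurable_xS k
  key_cut n z hn := cut_xS hn.le z
  D_meas := H.measurableSet_freeKids hc
  D_perm m i j z hi hi' hj hj' := by
    set σ := Equiv.swap i j with hσ
    have hr := fun l => swap_range (l := l) hi hi' hj hj'
    have hp : ∀ l, pos k l (perm σ z) = pos k (σ l) z := fun l => perm_pos hi hj l z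
    have hz : ∀ l, zed k l (perm σ z) = zed k (σ l) z := fun l =>
      Prod.ext (perm_xS hi hj z) (hp l)
    refine ⟨?_, fun _ => perm_xS hi hj z⟩
    constructor
    · rintro ⟨h1, h2⟩
      refine ⟨fun l hl => ?_, fun a b ha hb hab => ?_⟩
      · have := h1 (σ l) ((hr l).2 hl)
        rwa [hz (σ l), hσ, Equiv.swap_apply_self] at this
      · have := h2 (σ a) (σ b) ((hr a).2 ha) ((hr b).2 hb) (σ.injective.ne hab)
        rwa [hp (σ a), hp (σ b), hσ, Equiv.swap_apply_self, Equiv.swap_apply_self] at this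
    · rintro ⟨h1, h2⟩
      refine ⟨fun l hl => ?_, fun a b ha hb hab => ?_⟩
      · rw [hz l]; exact h1 _ ((hr l).2 hl)
      · rw [hp a, hp b]; exact h2 _ _ ((hr a).2 ha) ((hr b).2 hb) (σ.injective.ne hab)
  q_meas m := (measurable_const.mul (H.measurable_freeMass hc)).div measurable_const
  q_top m x := ENNReal.div_ne_top
    (ENNReal.mul_ne_top (ENNReal.natCast_ne_top _) (measure_ne_top _ _))
    (Nat.cast_ne_zero.2 (by have := H.kpos; omega))
  q_ne m _ := by
    filter_upwards [H.freeMass_pos hc] with z hz hD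
    have := hz (hD.1 k ⟨le_rfl, by omega⟩)
    have := H.kpos
    simp [ENNReal.div_eq_zero_iff, this.ne']
    assumption
  step m hm B hB := H.freeKids_step hc (by omega) hB
  window := by
    filter_upwards [H.ultra, H.symm] with z hu hsy m hz
    refine ⟨H.bddL _, fun i hi j hj hij => ?_⟩
    rw [Finset.mem_Ico] at hi hj
    have hC : 0 ≤ H.C := by
      have := (abs_nonneg _).trans (H.lip 1 0)
      simpa using this
    refine (H.lip _ _).trans (mul_le_mul_of_nonneg_left ?_ hC)
    have hck : pos k k z ∈ c := (hz.1 k ⟨le_rfl, by omega⟩).2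
    have hci : pos k i z ∈ c := (hz.1 i hi).2
    have hcj : pos k j z ∈ c := (hz.1 j hj).2
    obtain ⟨s0, hs0⟩ := Function.ne_iff.1 (hz.2 i j hi hj hij)
    obtain ⟨s1, hs1⟩ := exists_topP H.kpos (pos k k z)
    have hi0 := abs_le.1 (hd _ hci _ hck s0)
    have hj0 := abs_le.1 (hd _ hcj _ hck s0)
    have hi1 := abs_le.1 (hd _ hci _ hck s1)
    have hj1 := abs_le.1 (hd _ hcj _ hck s1)
    have htop := le_topP (pos k k z) s0
    set T := topP (pos k k z)
    simp only [pos] at hs0 hs1 hi0 hj0 hi1 hj1 htop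
    rw [abs_le]
    constructor
    · have h := hu i j s1 hij (by omega) (by omega)
      rcases min_le_iff.1 h with h | h <;> linarith
    · rcases lt_or_gt_of_ne hs0 with hlt | hlt
      · have h := hu i s0 j (by omega) (by omega) hij
        rw [hsy s0 j] at h
        rcases min_le_iff.1 h with h | h <;> linarith
      · have h := hu j s0 i (by omega) (by omega) hij.symm
        rw [hsy s0 i, hsy j i] at h
        rcases min_le_iff.1 h with h | h <;> linarith

include hc in
theorem free_test {d : ℝ} (hd0 : 0 ≤ d) (hd : ∀ p ∈ c, ∀ q ∈ c, ∀ s, |p s - q s| ≤ d)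
    {h : Sh k → ℝ} (hh : Measurable h) (hh0 : ∀ x, 0 ≤ h x) {b : ℝ} (hb : ∀ x, h x ≤ b) :
    ∫ z, (H.freeSet c).indicator (fun _ => h (xS k z) * (H.freeMass c (xS k z)).toReal *
        (H.Q z ^ 2 - 4 * (H.C * d))) (zed k k z) ∂H.P ≤ 0 := by
  have hU := H.measurableSet_freeSet hc
  have hCd : 0 ≤ H.C * d := by
    refine mul_nonneg ?_ hd0
    simpa using (abs_nonneg _).trans (H.lip 1 0)
  have hb0 : ∀ x : Sh k, 0 ≤ b := fun x => (hh0 x).trans (hb x)
  have hb' : ∀ x, |h x| ≤ b := fun x => by rw [abs_of_nonneg (hh0 x)]; exact hb x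
  set W : Set ((Sh k × Pos k) × Pos k) :=
    {w | w.1 ∈ H.freeSet c ∧ (w.1.1, w.2) ∈ H.freeSet c} ∩ {w | w.2 = w.1.2}ᶜ with hWdef
  have hW : MeasurableSet W :=
    ((measurable_fst hU).inter (hU.preimage (by fun_prop))).inter measurableSet_fiber.compl
  have hψ : ∀ l, Measurable fun z : Arr => (zed k k z, pos k l z) := fun l => by fun_prop
  set D2 := H.freeKids c 2
  have hD2m : MeasurableSet D2 := H.measurableSet_freeKids hc 2
  have hD2 : (fun z => (zed k k z, pos k (k + 1) z)) ⁻¹' W = D2 := by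
    ext z
    simp only [D2, hWdef, freeKids, mem_preimage, mem_inter_iff, mem_ofPred_eq, mem_compl_iff]
    constructor
    · rintro ⟨⟨h1, h2⟩, h3⟩
      refine ⟨fun l hl => ?_, fun a b ha hb hab => ?_⟩
      · rcases (by omega : l = k ∨ l = k + 1) with rfl | rfl
        · exact h1
        · exact h2
      · rcases (by omega : a = k ∧ b = k + 1 ∨ a = k + 1 ∧ b = k) with ⟨rfl, rfl⟩ | ⟨rfl, rfl⟩
        · exact fun e => h3 e.symm
        · exact h3
    · rintro ⟨h1, h2⟩
      exact ⟨⟨h1 k ⟨le_rfl, by omega⟩, h1 (k + 1) ⟨by omega, by omega⟩⟩,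
        h2 (k + 1) k ⟨by omega, by omega⟩ ⟨le_rfl, by omega⟩ (by omega)⟩
  -- integrals over `D2` of functions of the first two
  have hB : ∀ g : Arr → ℝ, Measurable g → (∃ B, ∀ z, |g z| ≤ B) → (∀ z, g (cut (k + 1) z) = g z) →
      (k + 1 : ℝ) * ∫ z in D2, g z ∂H.P = (k : ℝ) * ∫ z, (H.freeSet c).indicator
        (fun _ => g z * (H.freeMass c (xS k z)).toReal) (zed k k z) ∂H.P := by
    intro g hg ⟨B, hgB⟩ hgc
    set Φ : Arr × Pos k → ℝ := fun p => W.indicator (fun _ => g p.1) (zed k k p.1, p.2) with hΦdef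
    have hΦ : Measurable Φ := by
      have e : Φ = ((fun p : Arr × Pos k => (zed k k p.1, p.2)) ⁻¹' W).indicator fun p => g p.1 := by
        funext p
        by_cases hp : (zed k k p.1, p.2) ∈ W <;> simp [hΦdef, hp]
      rw [e]
      exact Measurable.indicator (by fun_prop) (hW.preimage (by fun_prop))
    have hΦb : ∀ p, |Φ p| ≤ B := fun p => by
      by_cases hp : (zed k k p.1, p.2) ∈ W
      · simp only [hΦdef, indicator_of_mem hp]; exact hgB _
      · simp only [hΦdef, indicator_of_notMem hp, abs_zero]; exact (abs_nonneg _).trans (hgB p.1)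
    have he : ∀ z x, Φ (cut (k + 1) z, x) = W.indicator (fun _ => g z) (zed k k z, x) := fun z x => by
      simp only [hΦdef, hgc, cut_zed k.le_succ k.lt_succ_self]
    have h' := H.int_sgg hΦ hΦb
    simp only [he] at h'
    have e1 : ∫ z, W.indicator (fun _ => g z) (zed k k z, pos k (k + 1) z) ∂H.P =
        ∫ z in D2, g z ∂H.P := by
      rw [← hD2, ← integral_indicator (hψ _ hW)]
      refine integral_congr_ae (ae_of_all _ fun z => ?_)
      by_cases hz : (zed k k z, pos k (k + 1) z) ∈ W <;> simp [hz]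
    have e2 : ∫ z, W.indicator (fun _ => g z) (zed k k z, pos k k z) ∂H.P = 0 :=
      (integral_congr_ae (ae_of_all _ fun z => indicator_of_notMem (fun h => h.2 rfl) _)).trans
        (integral_zero _ _)
    rw [e1, e2, zero_add] at h'
    rw [h']
    congr 1
    refine integral_congr_ae (ae_of_all _ fun z => ?_)
    dsimp only
    by_cases hz : zed k k z ∈ H.freeSet c
    · rw [indicator_of_mem hz]
      have e : (fun x => W.indicator (fun _ => g z) (zed k k z, x)) =
          {q : Pos k | (xS k z, q) ∈ H.freeSet c ∧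
            ∀ i ∈ ({k} : Finset ℕ), q ≠ pos k i z}.indicator fun _ => g z := by
        funext x
        have : (zed k k z, x) ∈ W ↔ x ∈ {q : Pos k | (xS k z, q) ∈ H.freeSet c ∧
            ∀ i ∈ ({k} : Finset ℕ), q ≠ pos k i z} := by
          exact ⟨fun h => ⟨h.1.2, fun i hi => by rw [Finset.mem_singleton.1 hi]; exact h.2⟩,
            fun h => ⟨⟨hz, h.1⟩, h.2 k (Finset.mem_singleton_self k)⟩⟩
        by_cases hx : (zed k k z, x) ∈ W
        · rw [indicator_of_mem hx, indicator_of_mem (this.1 hx)]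
        · rw [indicator_of_notMem hx, indicator_of_notMem (mt this.2 hx)]
      have hset : MeasurableSet {q : Pos k | (xS k z, q) ∈ H.freeSet c ∧
          ∀ i ∈ ({k} : Finset ℕ), q ≠ pos k i z} :=
        (measurable_prodMk_left hU).inter
          (measurableSet_forall fun i => measurableSet_imp (measurableSet_singleton _).compl)
      rw [e, integral_indicator_const _ hset, measureReal_def,
        H.freeMass_diff (xS k z) {k} (fun i => pos k i z) fun i hi => by
          rw [Finset.mem_singleton.1 hi]; exact hz.1, smul_eq_mul, mul_comm]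
    · rw [indicator_of_notMem hz]
      refine (integral_congr_ae (ae_of_all _ fun x => indicator_of_notMem (fun h => hz ?_) _)).trans
        (integral_zero _ _)
      exact h.1.1
  set a : Arr → ℝ := fun z => clip (z.2 k)
  set a' : Arr → ℝ := fun z => clip (z.2 (k + 1))
  -- the derivative identity
  have hqa' : ∫ z in D2, h (xS k z) * H.Q z * a' z ∂H.P = 0 := by
    have hs := H.star_pairs (w := fun x => h x.1) (hh.comp measurable_fst) (c := b) (fun x => hb' _) hW
    have e : (fun z => (zed k k z, pos k k z)) ⁻¹' W = ∅ :=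
      Set.eq_empty_of_forall_notMem fun z hz => hz.2 rfl
    rw [e, setIntegral_empty, hD2] at hs
    have hk1 : (k + 1 : ℝ) ≠ 0 := by positivity
    refine Eq.trans ?_ ((mul_eq_zero.1 hs.symm).resolve_left hk1)
    refine setIntegral_congr_ae hD2m ?_
    filter_upwards [H.bddA] with z hb1 _
    show h (xS k z) * H.Q z * clip (z.2 (k + 1)) = _
    rw [clip_of_abs_le (hb1 _)]; rfl
  have hsub : ∀ z, |a z - a' z| ≤ 2 := fun z =>
    (abs_sub _ _).trans (by linarith [abs_clip_le (z.2 k), abs_clip_le (z.2 (k + 1))])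
  have hsub2 : ∀ z, |(a z - a' z) ^ 2| ≤ 4 := fun z => by
    rw [abs_pow]
    exact (pow_le_pow_left₀ (abs_nonneg _) (hsub z) 2).trans (by norm_num)
  have hbd : ∀ {u : Arr → ℝ} {U : ℝ}, Measurable u → (∀ z, |u z| ≤ U) →
      Integrable (fun z => h (xS k z) * u z) H.P := fun {u U} hu hU' =>
    Integrable.of_bound (by fun_prop) (b * U) (ae_of_all _ fun z => by
      rw [Real.norm_eq_abs, abs_mul]; exact mul_le_mul (hb' _) (hU' z) (abs_nonneg _) (hb0 (xS k z)))
  set g : Sh k → ℝ := fun x => (H.freeMass c x).toReal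
  have hg : Measurable g := (H.measurable_freeMass hc).ennreal_toReal
  have hg1 : ∀ x, 0 ≤ g x ∧ g x ≤ 1 := fun x => ⟨ENNReal.toReal_nonneg,
    ENNReal.toReal_le_of_le_ofReal zero_le_one (by rw [ENNReal.ofReal_one]; exact prob_le_one)⟩
  -- `Q a` may be replaced by `Q²`
  have hqa : ∫ z in D2, h (xS k z) * H.Q z * a z ∂H.P = ∫ z in D2, h (xS k z) * H.Q z ^ 2 ∂H.P := by
    have hk0 : (k + 1 : ℝ) ≠ 0 := by positivity
    have h1 := hB (fun z => h (xS k z) * (H.Q z * H.G (zed k k z))) (by fun_prop) ⟨b * 2, fun z => by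
      rw [abs_mul, abs_mul]
      refine mul_le_mul (hb' _) ?_ (by positivity) (hb0 (xS k z))
      calc |H.Q z| * |H.G (zed k k z)| ≤ 2 * 1 :=
            mul_le_mul (H.abs_Q_le z) (H.abs_G_le _) (abs_nonneg _) zero_le_two
        _ = 2 := mul_one _⟩ fun z => by
      simp only [cut_xS k.le_succ, cut_zed k.le_succ k.lt_succ_self, H.Q_cut]
    have h2 : ∫ z, (H.freeSet c).indicator (fun _ => h (xS k z) * (H.Q z * H.G (zed k k z)) *
        (H.freeMass c (xS k z)).toReal) (zed k k z) ∂H.P = 0 := by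
      refine Eq.trans ?_ (H.orth
        (w := (H.freeSet c).indicator fun x => h x.1 * g x.1 * H.G x)
        (Measurable.indicator (by fun_prop) hU) (c := b) fun x => ?_)
      · refine integral_congr_ae (ae_of_all _ fun z => ?_)
        by_cases hz : zed k k z ∈ H.freeSet c
        · simp only [indicator_of_mem hz, g]
          show _ = h (xS k z) * (H.freeMass c (xS k z)).toReal * H.G (zed k k z) * H.Q z
          ring
        · simp [indicator_of_notMem hz]
      · by_cases hx : x ∈ H.freeSet c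
        · rw [indicator_of_mem hx, abs_mul, abs_mul, abs_of_nonneg (hg1 _).1, mul_assoc]
          calc |h x.1| * (g x.1 * |H.G x|) ≤ b * (1 * 1) := mul_le_mul (hb' _)
                (mul_le_mul (hg1 _).2 (H.abs_G_le x) (abs_nonneg _) zero_le_one)
                (mul_nonneg (hg1 _).1 (abs_nonneg _)) (hb0 x.1)
            _ = b := by ring
        · rw [indicator_of_notMem hx, abs_zero]; exact hb0 x.1
    rw [h2, mul_zero] at h1
    have h3 := (mul_eq_zero.1 h1).resolve_left hk0
    rw [← sub_eq_zero, ← integral_sub]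
    · refine Eq.trans ?_ h3
      refine integral_congr_ae (ae_of_all _ fun z => ?_)
      simp only [a, Hyp.Q]; ring
    · have := hbd (u := fun z => H.Q z * a z) (U := 2) (by fun_prop) fun z => by
        rw [abs_mul]
        calc |H.Q z| * |a z| ≤ 2 * 1 := mul_le_mul (H.abs_Q_le z) (abs_clip_le _) (abs_nonneg _) zero_le_two
          _ = 2 := mul_one _
      exact (show Integrable (fun z => h (xS k z) * H.Q z * a z) H.P by simpa only [← mul_assoc] using this).integrableOn
    · exact (hbd (u := fun z => H.Q z ^ 2) (U := 4) (by fun_prop) fun z => by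
        rw [abs_pow]; calc |H.Q z| ^ 2 ≤ 2 ^ 2 := pow_le_pow_left₀ (abs_nonneg _) (H.abs_Q_le z) 2
          _ = 4 := by norm_num).integrableOn
  -- Bessel
  set I := ∫ z in D2, h (xS k z) * H.Q z ^ 2 ∂H.P
  set J := ∫ z in D2, h (xS k z) * (a z - a' z) ^ 2 ∂H.P
  set K := ∫ z in D2, h (xS k z) ∂H.P
  have hIJ : I ≤ J := by
    have i1 := (hbd (u := fun z => H.Q z * a z) (U := 2) (by fun_prop) fun z => by
        rw [abs_mul]; calc |H.Q z| * |a z| ≤ 2 * 1 := mul_le_mul (H.abs_Q_le z) (abs_clip_le _) (abs_nonneg _) zero_le_two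
          _ = 2 := mul_one _).integrableOn (s := D2)
    have i2 := (hbd (u := fun z => H.Q z * a' z) (U := 2) (by fun_prop) fun z => by
        rw [abs_mul]; calc |H.Q z| * |a' z| ≤ 2 * 1 := mul_le_mul (H.abs_Q_le z) (abs_clip_le _) (abs_nonneg _) zero_le_two
          _ = 2 := mul_one _).integrableOn (s := D2)
    have i3 := (hbd (u := fun z => H.Q z ^ 2) (U := 4) (by fun_prop) fun z => by
        rw [abs_pow]; calc |H.Q z| ^ 2 ≤ 2 ^ 2 := pow_le_pow_left₀ (abs_nonneg _) (H.abs_Q_le z) 2
          _ = 4 := by norm_num).integrableOn (s := D2)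
    have i4 := (hbd (u := fun z => (a z - a' z) ^ 2) (U := 4) (by fun_prop) hsub2).integrableOn
      (s := D2)
    have e : I = ∫ z in D2, (h (xS k z) * (H.Q z * a z) - h (xS k z) * (H.Q z * a' z)) ∂H.P := by
      rw [integral_sub i1 i2]
      simp only [← mul_assoc]
      rw [hqa, hqa', sub_zero]
    have l : I ≤ 1 / 2 * I + 1 / 2 * J := by
      conv_lhs => rw [e]
      rw [← integral_const_mul, ← integral_const_mul, ← integral_add (i3.const_mul _) (i4.const_mul _)]
      refine setIntegral_mono (i1.sub i2) ((i3.const_mul _).add (i4.const_mul _)) fun z => ?_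
      nlinarith [mul_nonneg (hh0 (xS k z)) (sq_nonneg (H.Q z - (a z - a' z)))]
    linarith
  have hJ : J ≤ 4 * (H.C * d) * K := by
    have hch := (H.free_children hc hd).sq_sub_le hCd (h := fun x => ENNReal.ofReal (h x))
      hh.ennreal_ofReal ENNReal.ofReal_ne_top fun x => ENNReal.ofReal_le_ofReal (hb x)
    have eJ : ENNReal.ofReal J = ∫⁻ z in D2, ENNReal.ofReal (h (xS k z)) *
        ENNReal.ofReal ((z.2 k - z.2 (k + 1)) ^ 2) ∂H.P := by
      rw [ofReal_integral_eq_lintegral_ofReal ((hbd (u := fun z => (a z - a' z) ^ 2) (U := 4)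
        (by fun_prop) hsub2).integrableOn) (ae_of_all _ fun z => mul_nonneg (hh0 _) (sq_nonneg _))]
      refine setLIntegral_congr_fun_ae hD2m ?_
      filter_upwards [H.bddA] with z hb1 _
      rw [ENNReal.ofReal_mul (hh0 _)]
      show _ * ENNReal.ofReal ((clip (z.2 k) - clip (z.2 (k + 1))) ^ 2) = _
      rw [clip_of_abs_le (hb1 k), clip_of_abs_le (hb1 (k + 1))]
    have eK : ENNReal.ofReal K = ∫⁻ z in D2, ENNReal.ofReal (h (xS k z)) ∂H.P :=
      ofReal_integral_eq_lintegral_ofReal
        (Integrable.of_bound (hh.comp (measurable_xS k)).aestronglyMeasurable b (ae_of_all _ fun z => hb' _)).integrableOn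
        (ae_of_all _ fun z => hh0 _)
    rw [← eJ, ← eK, ← ENNReal.ofReal_mul (by linarith)] at hch
    exact (ENNReal.ofReal_le_ofReal_iff (mul_nonneg (by linarith)
      (integral_nonneg fun z => hh0 _))).1 hch
  -- back to one replica
  have hlast := hB (fun z => h (xS k z) * (H.Q z ^ 2 - 4 * (H.C * d))) (by fun_prop)
    ⟨b * (4 + 4 * (H.C * d)), fun z => by
      rw [abs_mul]
      refine mul_le_mul (hb' _) (abs_le.2 ⟨?_, ?_⟩) (abs_nonneg _) (hb0 (xS k z))
      · nlinarith [sq_nonneg (H.Q z)]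
      · nlinarith [sq_abs (H.Q z), pow_le_pow_left₀ (abs_nonneg _) (H.abs_Q_le z) 2]⟩
    fun z => by simp only [cut_xS k.le_succ, H.Q_cut]
  have e : ∫ z in D2, h (xS k z) * (H.Q z ^ 2 - 4 * (H.C * d)) ∂H.P = I - 4 * (H.C * d) * K := by
    simp only [mul_sub]
    have i5 : Integrable (fun z => h (xS k z)) H.P :=
      Integrable.of_bound (hh.comp (measurable_xS k)).aestronglyMeasurable b (ae_of_all _ fun z => hb' _)
    have i3 := (hbd (u := fun z => H.Q z ^ 2) (U := 4) (by fun_prop) fun z => by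
        rw [abs_pow]; calc |H.Q z| ^ 2 ≤ 2 ^ 2 := pow_le_pow_left₀ (abs_nonneg _) (H.abs_Q_le z) 2
          _ = 4 := by norm_num).integrableOn (s := D2)
    rw [integral_sub i3 (i5.integrableOn.mul_const _), integral_mul_const]
    ring
  rw [e] at hlast
  have hkk : (0 : ℝ) < k := Nat.cast_pos.2 H.kpos
  have hle : (k + 1 : ℝ) * (I - 4 * (H.C * d) * K) ≤ 0 :=
    mul_nonpos_of_nonneg_of_nonpos (by positivity) (by linarith)
  rw [hlast] at hle
  have hfin := le_of_mul_le_mul_left (hle.trans_eq (mul_zero (k : ℝ)).symm) hkk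
  refine le_of_eq_of_le (integral_congr_ae (ae_of_all _ fun z => ?_)) hfin
  by_cases hz : zed k k z ∈ H.freeSet c
  · simp only [indicator_of_mem hz]; ring
  · simp [indicator_of_notMem hz]

include hc in
/-- In a free cell of width `d` the residual is small. -/
theorem free_cell {d : ℝ} (hd0 : 0 ≤ d) (hd : ∀ p ∈ c, ∀ q ∈ c, ∀ s, |p s - q s| ≤ d) :
    ∫⁻ z in zed k k ⁻¹' H.freeSet c, ENNReal.ofReal (H.Q z ^ 2) ∂H.P ≤
      ENNReal.ofReal (4 * (H.C * d)) * H.P (zed k k ⁻¹' H.freeSet c) := by
  set S := zed k k ⁻¹' H.freeSet c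
  have hSm : MeasurableSet S := measurable_zed k k (H.measurableSet_freeSet hc)
  set g : Sh k → ℝ := fun x => (H.freeMass c x).toReal
  have hg : Measurable g := (H.measurable_freeMass hc).ennreal_toReal
  have hb : ∀ z, |H.Q z ^ 2 - 4 * (H.C * d)| ≤ 4 + |4 * (H.C * d)| := fun z => by
    refine (abs_sub _ _).trans (add_le_add ?_ le_rfl)
    rw [abs_pow]
    calc |H.Q z| ^ 2 ≤ 2 ^ 2 := pow_le_pow_left₀ (abs_nonneg _) (H.abs_Q_le z) 2
      _ = 4 := by norm_num
  have hseq : ∀ n : ℕ,
      ∫ z in S, (if 1 / ((n : ℝ) + 1) ≤ g (xS k z) then (H.Q z ^ 2 - 4 * (H.C * d)) else 0) ∂H.P ≤ 0 := by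
    intro n
    have hn : (0 : ℝ) < 1 / ((n : ℝ) + 1) := by positivity
    refine le_of_eq_of_le ?_ (H.free_test hc hd0 hd
      (h := fun x => if 1 / ((n : ℝ) + 1) ≤ g x then (g x)⁻¹ else 0)
      (Measurable.ite (measurableSet_le measurable_const hg) hg.inv measurable_const)
      (fun x => by split_ifs <;> first | exact inv_nonneg.2 ENNReal.toReal_nonneg | exact le_rfl)
      (b := (n : ℝ) + 1) fun x => by
        split_ifs with h
        · exact (inv_anti₀ hn h).trans (by rw [one_div, inv_inv])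
        · positivity)
    rw [← integral_indicator hSm]
    refine integral_congr_ae (ae_of_all _ fun z => ?_)
    by_cases hz : z ∈ S
    · rw [indicator_of_mem hz]
      simp only [indicator_of_mem (show zed k k z ∈ H.freeSet c from hz)]
      split_ifs with h
      · rw [inv_mul_cancel₀ (show (H.freeMass c (xS k z)).toReal ≠ 0 from (hn.trans_le h).ne'), one_mul]
      · simp
    · simp [indicator_of_notMem hz, indicator_of_notMem (show zed k k z ∉ H.freeSet c from hz)]
  have hlim : Filter.Tendsto (fun n : ℕ =>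
      ∫ z in S, (if 1 / ((n : ℝ) + 1) ≤ g (xS k z) then (H.Q z ^ 2 - 4 * (H.C * d)) else 0) ∂H.P)
      Filter.atTop (nhds (∫ z in S, (H.Q z ^ 2 - 4 * (H.C * d)) ∂H.P)) := by
    refine tendsto_integral_of_dominated_convergence (fun _ => 4 + |4 * (H.C * d)|)
      (fun n => (Measurable.ite (measurableSet_le measurable_const (by fun_prop)) (by fun_prop)
        measurable_const).aestronglyMeasurable) (integrable_const _) (fun n => ae_of_all _ fun z => ?_) ?_
    · rw [Real.norm_eq_abs]
      split_ifs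
      · exact hb z
      · rw [abs_zero]; positivity
    · rw [ae_restrict_iff' hSm]
      filter_upwards [H.freeMass_pos hc] with z hz hzS
      have hpos : 0 < g (xS k z) := ENNReal.toReal_pos (hz hzS) (measure_ne_top _ _)
      refine tendsto_const_nhds.congr' ?_
      filter_upwards [(tendsto_one_div_add_atTop_nhds_zero_nat.eventually (ge_mem_nhds hpos))] with n hn
      rw [if_pos hn]
  have h0 := le_of_tendsto' hlim hseq
  have i1 : Integrable (fun z => H.Q z ^ 2) H.P :=
    Integrable.of_bound (by fun_prop) 4 (ae_of_all _ fun z => by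
      rw [Real.norm_eq_abs, abs_pow]
      calc |H.Q z| ^ 2 ≤ 2 ^ 2 := pow_le_pow_left₀ (abs_nonneg _) (H.abs_Q_le z) 2
        _ = 4 := by norm_num)
  rw [integral_sub i1.integrableOn (integrable_const _), setIntegral_const, smul_eq_mul, sub_nonpos] at h0
  rw [← ofReal_integral_eq_lintegral_ofReal i1.integrableOn (ae_of_all _ fun z => sq_nonneg _),
    ← ofReal_measureReal (measure_ne_top _ _), ← ENNReal.ofReal_mul' measureReal_nonneg]
  exact ENNReal.ofReal_le_ofReal (h0.trans_eq (mul_comm _ _))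

/-- Off the atoms the residual vanishes. -/
theorem Q_eq_zero_free : ∀ᵐ z ∂H.P, H.mass (zed k k z) = 0 → H.Q z = 0 := by
  set S := {z : Arr | H.mass (zed k k z) = 0}
  have hSm : MeasurableSet S := measurableSet_eq_fun (by fun_prop) measurable_const
  suffices h : ∫⁻ z in S, ENNReal.ofReal (H.Q z ^ 2) ∂H.P = 0 by
    rw [lintegral_eq_zero_iff (by fun_prop), Filter.EventuallyEq, ae_restrict_iff' hSm] at h
    filter_upwards [h] with z hz h0
    exact (sq_nonpos_iff _).1 (ENNReal.ofReal_eq_zero.1 (hz h0))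
  have hbound : ∀ N : ℕ, ∫⁻ z in S, ENNReal.ofReal (H.Q z ^ 2) ∂H.P ≤
      ENNReal.ofReal (4 * (H.C * (1 / ((N : ℝ) + 1)))) := by
    intro N
    set U : (Fin k → ℤ) → Set Arr := fun c => zed k k ⁻¹' H.freeSet (gridCell (N + 1) c)
    have hUm : ∀ c, MeasurableSet (U c) := fun c =>
      measurable_zed k k (H.measurableSet_freeSet (measurableSet_gridCell _ c))
    have hS : S = ⋃ c, U c := by
      ext z
      simp only [S, U, mem_iUnion, mem_preimage, freeSet, mem_ofPred_eq, gridCell]
      exact ⟨fun h => ⟨fun s => ⌊(zed k k z).2 s * ((N + 1 : ℕ) : ℝ)⌋, h, fun s => rfl⟩,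
        fun ⟨c, h, _⟩ => h⟩
    have hdis : Pairwise (Function.onFun Disjoint U) := by
      intro c c' hcc
      refine Set.disjoint_left.2 fun z hz hz' => hcc (funext fun s => ?_)
      exact (hz.2 s).symm.trans (hz'.2 s)
    rw [hS, lintegral_iUnion hUm hdis]
    have hd : ∀ c, ∀ p ∈ gridCell (k := k) (N + 1) c, ∀ q ∈ gridCell (k := k) (N + 1) c, ∀ s,
        |p s - q s| ≤ 1 / ((N : ℝ) + 1) := fun c p hp q hq s => by
      have := gridCell_close N.succ_pos hp hq s
      push_cast at this
      exact this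
    refine (ENNReal.tsum_le_tsum fun c =>
      H.free_cell (measurableSet_gridCell _ c) (by positivity) (hd c)).trans ?_
    rw [ENNReal.tsum_mul_left, ← measure_iUnion hdis hUm]
    exact mul_le_of_le_one_right zero_le prob_le_one
  have hlim : Filter.Tendsto (fun N : ℕ => ENNReal.ofReal (4 * (H.C * (1 / ((N : ℝ) + 1)))))
      Filter.atTop (nhds 0) := by
    rw [← ENNReal.ofReal_zero]
    exact (ENNReal.continuous_ofReal.tendsto _).comp (by
      simpa using (tendsto_one_div_add_atTop_nhds_zero_nat.const_mul H.C).const_mul 4)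
  exact le_antisymm (ge_of_tendsto' hlim hbound) zero_le

include H in
/-- **One induction step:** the multi-overlap with a new replica is a function of shape and position. -/
theorem determined : ∃ G : Sh k × Pos k → ℝ, Measurable G ∧ (∀ x, |G x| ≤ 1) ∧
    ∀ᵐ z ∂H.P, z.2 k = G (zed k k z) := by
  refine ⟨H.G, H.measurable_G, H.abs_G_le, ?_⟩
  filter_upwards [H.Q_eq_zero_atom, H.Q_eq_zero_free, H.bddA] with z h1 h2 hb
  have h : H.Q z = 0 := (em (H.mass (zed k k z) = 0)).elim h2 h1
  rw [Hyp.Q, clip_of_abs_le (hb k), sub_eq_zero] at h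
  exact h

end Hyp

end

end Vale.Agent.P168.Induct
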