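import Vale.Agent.P168.Induct.Centred
import Vale.Agent.P168.Induct.Free
import Vale.Agent.P168.Sync.Strong

/-!
P168, induction (helper27): the array of a limit satisfies the hypotheses of one induction step.
-/

namespace Vale.Agent.P168.Induct

open MeasureTheory ProbabilityTheory Set
open scoped symmDiff ENNReal

noncomputable section

variable {L : Lim} {w : (Σ j : Spc, Finset (Fin j.1)) → ℝ} {k : ℕ} {j : Spc} {A : Pat j.1}
  {B : Finset (Fin j.1)}

theorem real_inter (hX : GGTree L (comb w)) {E E' : Set Arr} (hE : MeasurableSet E)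
    (hE' : MeasurableSet E') :
    ∫ ω, E.indicator (fun _ => (1 : ℝ)) (arr w j A B ω) *
        E'.indicator (fun _ => 1) (arr w j A B ω) ∂L.P =
      (L.P.map (arr w j A B)).real (E ∩ E') := by
  rw [map_measureReal_apply (measurable_arr hX) (hE.inter hE'),
    ← integral_indicator_one (measurable_arr hX (hE.inter hE'))]
  refine integral_congr_ae (ae_of_all _ fun ω => ?_)
  by_cases h : arr w j A B ω ∈ E <;> by_cases h' : arr w j A B ω ∈ E' <;> simp [h, h']

theorem obs_cut (hX : GGTree L (comb w)) (hA : Below k A) {n : ℕ} (hkn : k ≤ n) {S : Set Arr}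
    (hS : MeasurableSet S) :
    Obs n fun ω => (cut n ⁻¹' S).indicator (fun _ => (1 : ℝ)) (arr w j A B ω) := by
  refine ⟨?_, 1, fun ω => ?_⟩
  · obtain ⟨g, hg, he⟩ := (fac_cut_arr (B := B) hX hA hkn).comp
      (φ := S.indicator fun _ => (1 : ℝ)) (measurable_const.indicator hS)
    refine ⟨g, hg, funext fun ω => ?_⟩
    rw [← congrFun he ω]
    by_cases h : cut n (arr w j A B ω) ∈ S <;> simp [h]
  · by_cases h : arr w j A B ω ∈ cut n ⁻¹' S <;> simp [h]

theorem inst_sgg (hX : GGTree L (comb w)) (hk : 1 ≤ k) (hA : Below k A) (n : ℕ) (hkn : k ≤ n)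
    (S : Set Arr) (hS : MeasurableSet S) (T : Set (Pos k)) (hT : MeasurableSet T) :
    (n : ℝ≥0∞) * L.P.map (arr w j A B) (cut n ⁻¹' S ∩ pos k n ⁻¹' T) =
      ∑ l ∈ Finset.Ico k n, L.P.map (arr w j A B) (cut n ⁻¹' S ∩ pos k l ⁻¹' T)
        + (k : ℝ≥0∞) * ∫⁻ z in cut n ⁻¹' S, posLaw L (comb w) k (xS k z) T
            ∂L.P.map (arr w j A B) := by
  have : IsProbabilityMeasure (L.P.map (arr w j A B)) :=
    Measure.isProbabilityMeasure_map (measurable_arr hX).aemeasurable
  have : IsMarkovKernel (posLaw L (comb w) k) := by unfold posLaw; infer_instance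
  set E := cut n ⁻¹' S
  have hE : MeasurableSet E := measurable_cut n hS
  have h := hX.strong hk hkn (obs_cut (B := B) hX hA hkn hS)
    (h := fun q => T.indicator (fun _ => (1 : ℝ)) q.2)
    ((measurable_const.indicator hT).comp measurable_snd) (C := 1) fun q => by
      by_cases hq : q.2 ∈ T <;> simp [hq]
  have e : ∀ l, k ≤ l → ∫ ω, E.indicator (fun _ => (1 : ℝ)) (arr w j A B ω) *
      T.indicator (fun _ => (1 : ℝ)) (placeK (comb w) k l ω).2 ∂L.P =
        (L.P.map (arr w j A B)).real (E ∩ pos k l ⁻¹' T) := fun l hl => by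
    rw [← real_inter hX hE (measurable_pos k l hT)]
    refine integral_congr_ae (ae_of_all _ fun ω => ?_)
    show _ * T.indicator (fun _ => (1 : ℝ)) (posK (comb w) k l ω) = _
    rw [← pos_arr (j := j) (A := A) (B := B) hl ω]
    by_cases hq : pos k l (arr w j A B ω) ∈ T <;> simp [hq]
  have eγ : ∫ ω, E.indicator (fun _ => (1 : ℝ)) (arr w j A B ω) *
      ∫ p, T.indicator (fun _ => (1 : ℝ)) p ∂posLaw L (comb w) k (matS (comb w) k ω) ∂L.P =
        (∫⁻ z in E, posLaw L (comb w) k (xS k z) T ∂L.P.map (arr w j A B)).toReal := by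
    have hm : Measurable fun z : Arr => posLaw L (comb w) k (xS k z) T :=
      (Kernel.measurable_coe _ hT).comp (measurable_xS k)
    rw [← integral_toReal hm.aemeasurable (ae_of_all _ fun z => measure_lt_top _ _),
      ← integral_indicator hE, integral_map (measurable_arr hX).aemeasurable
        (hm.ennreal_toReal.indicator hE).aestronglyMeasurable]
    refine integral_congr_ae (ae_of_all _ fun ω => ?_)
    simp only [integral_indicator_const (μ := posLaw L (comb w) k (matS (comb w) k ω)) _ hT,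
      measureReal_def, smul_eq_mul, mul_one]
    by_cases hq : arr w j A B ω ∈ E <;> simp [hq, xS_arr]
  have hlt : ∫⁻ z in E, posLaw L (comb w) k (xS k z) T ∂L.P.map (arr w j A B) ≠ ∞ :=
    ne_top_of_le_ne_top (measure_ne_top (L.P.map (arr w j A B)) E)
      ((lintegral_mono fun z => prob_le_one).trans_eq (setLIntegral_one E))
  rw [e n hkn, eγ, Finset.sum_congr rfl fun l hl => e l (Finset.mem_Ico.1 hl).1] at h
  have hs : ∀ l ∈ Finset.Ico k n,
      L.P.map (arr w j A B) (E ∩ pos k l ⁻¹' T) ≠ ∞ := fun l _ => measure_ne_top _ _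
  have hk' := ENNReal.mul_ne_top (ENNReal.natCast_ne_top k) hlt
  refine (ENNReal.toReal_eq_toReal_iff' (ENNReal.mul_ne_top (ENNReal.natCast_ne_top n)
    (measure_ne_top _ _)) (ENNReal.add_ne_top.2 ⟨ENNReal.sum_ne_top.2 hs, hk'⟩)).1 ?_
  rw [ENNReal.toReal_add (ENNReal.sum_ne_top.2 hs) hk', ENNReal.toReal_sum hs, ENNReal.toReal_mul,
    ENNReal.toReal_mul, ENNReal.toReal_natCast, ENNReal.toReal_natCast]
  exact h

theorem inst_gg1 (hX : GGTree L (comb w)) (hA : Below k A) (n : ℕ) (hkn : k ≤ n) (l : ℕ)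
    (hl : l < n) (S : Set Arr) (hS : MeasurableSet S) (I : Set ℝ) (hI : MeasurableSet I) :
    (n : ℝ≥0∞) * L.P.map (arr w j A B) (cut n ⁻¹' S ∩ (fun z => z.1 n l) ⁻¹' I) =
      L.P.map (arr w j A B) (cut n ⁻¹' S) * L.P.map (comb w 0 1) I
        + ∑ l' ∈ (Finset.range n).erase l,
            L.P.map (arr w j A B) (cut n ⁻¹' S ∩ (fun z => z.1 l l') ⁻¹' I) := by
  have : IsProbabilityMeasure (L.P.map (arr w j A B)) :=
    Measure.isProbabilityMeasure_map (measurable_arr hX).aemeasurable
  have : IsProbabilityMeasure (L.P.map (comb w 0 1)) :=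
    Measure.isProbabilityMeasure_map (measurable_comb hX 0 1).aemeasurable
  set E := cut n ⁻¹' S
  have hE : MeasurableSet E := measurable_cut n hS
  have h := hX.gg n _ (obs_cut (B := B) hX hA hkn hS) (I.indicator fun _ => (1 : ℝ))
    (measurable_const.indicator hI) ⟨1, fun t => by by_cases ht : t ∈ I <;> simp [ht]⟩ l hl
  have e : ∀ a b : ℕ, a ≠ b → ∫ ω, E.indicator (fun _ => (1 : ℝ)) (arr w j A B ω) *
      I.indicator (fun _ => (1 : ℝ)) (comb w a b ω) ∂L.P =
        (L.P.map (arr w j A B)).real (E ∩ (fun z => z.1 a b) ⁻¹' I) := fun a b hab => by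
    rw [← real_inter hX hE (measurable_X a b hI)]
    refine integral_congr_ae (ae_of_all _ fun ω => ?_)
    have he : (arr w j A B ω).1 a b = comb w a b ω := if_neg hab
    dsimp only
    rw [← he]
    by_cases hq : (arr w j A B ω).1 a b ∈ I <;> simp [hq]
  have e0 : ∫ ω, E.indicator (fun _ => (1 : ℝ)) (arr w j A B ω) ∂L.P =
      (L.P.map (arr w j A B)).real E := by
    rw [map_measureReal_apply (measurable_arr hX) hE,
      ← integral_indicator_one (measurable_arr hX hE)]
    rfl
  have e1 : ∫ ω, I.indicator (fun _ => (1 : ℝ)) (comb w 0 1 ω) ∂L.P =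
      (L.P.map (comb w 0 1)).real I := by
    rw [map_measureReal_apply (measurable_comb hX 0 1) hI,
      ← integral_indicator_one (measurable_comb hX 0 1 hI)]
    rfl
  simp only [comb_comm (w := w) l n] at h
  rw [e n l (by omega), e0, e1, Finset.sum_congr rfl fun l' hl' =>
    e l l' (Finset.mem_erase.1 hl').1.symm] at h
  have hs : ∀ l' ∈ (Finset.range n).erase l,
      L.P.map (arr w j A B) (E ∩ (fun z => z.1 l l') ⁻¹' I) ≠ ∞ := fun l _ => measure_ne_top _ _
  have hp := ENNReal.mul_ne_top (measure_ne_top (L.P.map (arr w j A B)) E)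
    (measure_ne_top (L.P.map (comb w 0 1)) I)
  refine (ENNReal.toReal_eq_toReal_iff' (ENNReal.mul_ne_top (ENNReal.natCast_ne_top n)
    (measure_ne_top _ _)) (ENNReal.add_ne_top.2 ⟨hp, ENNReal.sum_ne_top.2 hs⟩)).1 ?_
  rw [ENNReal.toReal_add hp (ENNReal.sum_ne_top.2 hs), ENNReal.toReal_sum hs, ENNReal.toReal_mul,
    ENNReal.toReal_mul, ENNReal.toReal_natCast]
  exact h

theorem inst_exch (hX : GGTree L (comb w)) (hA : Below k A) (i i' : ℕ) (hi : k ≤ i) (hi' : k ≤ i') :
    (L.P.map (arr w j A B)).map (perm (Equiv.swap i i')) = L.P.map (arr w j A B) := by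
  set σ := Equiv.swap i i' with hσ
  have hm : Measurable (relabel σ) := measurable_pi_lambda _ fun _ => measurable_pi_apply _
  have he : perm σ ∘ arr w j A B = arr w j A B ∘ relabel σ := by
    funext ω
    refine Prod.ext (funext fun a => funext fun b => ?_) (funext fun l => ?_)
    · simp only [perm, arr, Function.comp_apply, hX.equiv _ σ.injective, σ.injective.eq_iff]
    · show R j (flipPat A (σ l) B) ω = R j (flipPat A l B) (relabel σ ω)
      have hφ : Function.Injective fun p : ℕ × Fin j.1 => (σ p.1, p.2) :=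
        σ.injective.prodMap Function.injective_id
      have : (flipPat A l B).image (fun p : ℕ × Fin j.1 => (σ p.1, p.2)) = flipPat A (σ l) B := by
        rw [flipPat, flipPat, Finset.image_symmDiff _ _ hφ]
        congr 1
        · conv_rhs => rw [← Finset.image_id (s := A)]
          refine Finset.image_congr fun p hp => ?_
          exact Prod.ext (swap_base hi hi' (hA p hp)) rfl
        · ext ⟨r, q⟩
          simp only [mem_single, Finset.mem_image, Prod.exists, Prod.mk.injEq]
          exact ⟨fun ⟨a, b, ⟨ha, hb⟩, h1, h2⟩ => ⟨by rw [← h1, ha], h2 ▸ hb⟩,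
            fun ⟨h1, h2⟩ => ⟨l, q, ⟨rfl, h2⟩, h1.symm, rfl⟩⟩
      simp only [R, relabel, this]
  rw [Measure.map_map (measurable_perm σ) (measurable_arr hX), he,
    ← Measure.map_map (measurable_arr hX) hm, L.inv σ σ.injective]

/-- The Gram matrix of the base pattern and finitely many replicas, read from the array. -/
def gram (F : ℝ → ℝ) (z : Arr) : Option ℕ → Option ℕ → ℝ
  | none, none => 1
  | none, some i => z.2 i
  | some i, none => z.2 i
  | some i, some i' => if i = i' then 1 else F (z.1 i i')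

theorem measurable_gram {F : ℝ → ℝ} (hF : Measurable F) (o o' : Option ℕ) :
    Measurable fun z => gram F z o o' := by
  match o, o' with
  | none, none => exact measurable_const
  | none, some i => exact measurable_A i
  | some i, none => exact measurable_A i
  | some i, some i' =>
    by_cases h : i = i'
    · simp only [gram, if_pos h]; exact measurable_const
    · simp only [gram, if_neg h]; exact hF.comp (measurable_X i i')

theorem inst_psd (hX : GGTree L (comb w)) {F : ℝ → ℝ} (hF : Measurable F)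
    (hs : ∀ a b : ℕ, a ≠ b → ∀ᵐ ω ∂L.P, R j (pair a b B) ω = F (comb w a b ω)) :
    ∀ᵐ z ∂L.P.map (arr w j A B), ∀ (s : Finset ℕ) (x : ℕ → ℝ), (∀ i ∈ s, k ≤ i) →
      (∑ i ∈ s, x i * z.2 i) ^ 2 ≤
        ∑ i ∈ s, ∑ i' ∈ s, x i * x i' * (if i = i' then 1 else F (z.1 i i')) := by
  let φ : Option ℕ → Pat j.1 := fun o => o.elim A fun i => single i B
  have hg : ∀ o o', ∀ᵐ ω ∂L.P, R j (φ o ∆ φ o') ω = gram F (arr w j A B ω) o o' := by
    intro o o'
    match o, o' with
    | none, none => simpa [φ, gram] using L.one j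
    | none, some i => exact ae_of_all _ fun ω => rfl
    | some i, none =>
      refine ae_of_all _ fun ω => ?_
      show R j (single i B ∆ A) ω = R j (A ∆ single i B) ω
      rw [symmDiff_comm]
    | some i, some i' =>
      by_cases h : i = i'
      · subst h; simpa [φ, gram] using L.one j
      · filter_upwards [hs i i' h] with ω hω
        simpa [φ, gram, h, arr, pair] using hω
  have key : ∀ᵐ z ∂L.P.map (arr w j A B), ∀ (s : Finset ℕ) (q : Option ↥s → ℚ),
      0 ≤ ∑ o, ∑ o', (q o : ℝ) * q o' * gram F z (o.map (↑)) (o'.map (↑)) := by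
    rw [ae_all_iff]; intro s
    rw [ae_all_iff]; intro q
    have hm : Measurable fun z =>
        ∑ o, ∑ o', (q o : ℝ) * q o' * gram F z (o.map (↑)) (o'.map (↑)) :=
      Finset.measurable_sum _ fun o _ => Finset.measurable_sum _ fun o' _ =>
        (measurable_gram hF _ _).const_mul _
    rw [ae_map_iff (measurable_arr hX).aemeasurable (measurableSet_le measurable_const hm)]
    filter_upwards [psd_patterns L (fun o : Option ↥s => φ (o.map (↑))) fun o => (q o : ℝ),
      ae_all_iff.2 fun o => ae_all_iff.2 fun o' => hg o o'] with ω h hω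
    simpa only [hω] using h
  filter_upwards [key] with z hz s x _
  have hall : ∀ y : Option ↥s → ℝ,
      0 ≤ ∑ o, ∑ o', y o * y o' * gram F z (o.map (↑)) (o'.map (↑)) := by
    intro y
    refine (DenseRange.piMap fun _ => Rat.denseRange_cast).induction_on (p := fun y : Option ↥s → ℝ =>
      0 ≤ ∑ o, ∑ o', y o * y o' * gram F z (o.map (↑)) (o'.map (↑))) y ?_ fun q => hz s q
    exact isClosed_le continuous_const (by fun_prop)
  have h := hall fun o => o.elim (-∑ i ∈ s, x i * z.2 i) fun i => x i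
  simp only [Fintype.sum_option, Option.elim, Option.map_none, Option.map_some, gram] at h
  simp only [Finset.sum_add_distrib, Finset.sum_coe_sort s (fun i => -(∑ i ∈ s, x i * z.2 i) * x i * z.2 i),
    Finset.sum_coe_sort s (fun i => x i * -(∑ i ∈ s, x i * z.2 i) * z.2 i),
    Finset.sum_coe_sort s (fun i => ∑ i' : ↥s, x i * x i' * (if i = (i' : ℕ) then 1 else F (z.1 i i')))] at h
  have e : ∀ i, ∑ i' : ↥s, x i * x i' * (if i = (i' : ℕ) then 1 else F (z.1 i i')) =
      ∑ i' ∈ s, x i * x i' * (if i = i' then 1 else F (z.1 i i')) := fun i =>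
    Finset.sum_coe_sort s (fun i' => x i * x i' * (if i = i' then 1 else F (z.1 i i')))
  simp only [e] at h
  have e1 : ∀ c : ℝ, ∑ i ∈ s, c * x i * z.2 i = c * ∑ i ∈ s, x i * z.2 i := fun c => by
    rw [Finset.mul_sum]; exact Finset.sum_congr rfl fun i _ => by ring
  have e2 : ∀ c : ℝ, ∑ i ∈ s, x i * c * z.2 i = c * ∑ i ∈ s, x i * z.2 i := fun c => by
    rw [Finset.mul_sum]; exact Finset.sum_congr rfl fun i _ => by ring
  rw [e1, e2] at h
  nlinarith

theorem inst_symm (hX : GGTree L (comb w)) :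
    ∀ᵐ z ∂L.P.map (arr w j A B), ∀ a b : ℕ, z.1 a b = z.1 b a := by
  refine ae_all_iff.2 fun a => ae_all_iff.2 fun b => ?_
  rw [ae_map_iff (measurable_arr hX).aemeasurable
    (measurableSet_eq_fun (measurable_X a b) (measurable_X b a))]
  refine ae_of_all _ fun ω => ?_
  simp only [arr, comb_comm (w := w) a b, eq_comm (a := a)]

theorem inst_ultra (hX : GGTree L (comb w)) : ∀ᵐ z ∂L.P.map (arr w j A B),
    ∀ a b c : ℕ, a ≠ b → b ≠ c → a ≠ c → min (z.1 a c) (z.1 b c) ≤ z.1 a b := by
  refine ae_all_iff.2 fun a => ae_all_iff.2 fun b => ae_all_iff.2 fun c => ?_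
  by_cases hne : a ≠ b ∧ b ≠ c ∧ a ≠ c
  · rw [ae_map_iff (measurable_arr hX).aemeasurable (measurableSet_imp (measurableSet_imp
      (measurableSet_imp (measurableSet_le ((measurable_X a c).min (measurable_X b c))
        (measurable_X a b)))))]
    filter_upwards [hX.ultra a c b hne.2.2 hne.2.1.symm hne.1] with ω hω _ _ _
    simp only [arr, if_neg hne.1, if_neg hne.2.1, if_neg hne.2.2, comb_comm (w := w) b c]
    exact hω
  · exact ae_of_all _ fun z h1 h2 h3 => absurd ⟨h1, h2, h3⟩ hne

theorem inst_bddA (hX : GGTree L (comb w)) :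
    ∀ᵐ z ∂L.P.map (arr w j A B), ∀ a, |z.2 a| ≤ 1 := by
  refine ae_all_iff.2 fun a => ?_
  rw [ae_map_iff (measurable_arr hX).aemeasurable
    (measurableSet_le (measurable_A a).abs measurable_const)]
  exact ae_of_all _ fun ω => abs_R_le _ _ _

theorem inst_star (hw : Weights w) (hD : Determined L (comb w) k) (hX : GGTree L (comb w))
    (hA : Below k A) (u : Arr → ℝ) (hu : Measurable u) (hc : ∃ c, ∀ z, |u z| ≤ c)
    (horth : ∀ v : Sh k → ℝ, Measurable v → (∃ c, ∀ x, |v x| ≤ c) →
      ∫ z, u (cut (k + 1) z) * v (xS k z) ∂L.P.map (arr w j A B) = 0)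
    (T : Set (Pos k)) (hT : MeasurableSet T) :
    ∫ z, u (cut (k + 1) z) * (T.indicator (fun _ => 1) (pos k k z) * z.2 k)
        ∂L.P.map (arr w j A B) =
      (k + 1 : ℝ) * ∫ z, u (cut (k + 1) z) *
        (T.indicator (fun _ => 1) (pos k (k + 1) z) * z.2 (k + 1)) ∂L.P.map (arr w j A B) := by
  obtain ⟨c, hc⟩ := hc
  have hTm := measurable_arr (j := j) (A := A) (B := B) hX
  have hf : Obs (k + 1) fun ω => u (cut (k + 1) (arr w j A B ω)) :=
    ⟨(fac_cut_arr (B := B) hX hA k.le_succ).comp hu, c, fun ω => hc _⟩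
  have h0 : ∀ Ψ : Sh k → ℝ, Measurable Ψ → (∀ M, |Ψ M| ≤ 1) →
      ∫ ω, u (cut (k + 1) (arr w j A B ω)) * Ψ (matS (comb w) k ω) ∂L.P = 0 := by
    intro Ψ hΨ hb
    have := horth Ψ hΨ ⟨1, hb⟩
    rw [integral_map hTm.aemeasurable (by fun_prop)] at this
    simpa only [xS_arr] using this
  have h := centred hw hD hf h0 hA B hT
  have hm : ∀ l, Measurable fun z : Arr =>
      u (cut (k + 1) z) * (T.indicator (fun _ => 1) (pos k l z) * z.2 l) := fun l =>
    (hu.comp (measurable_cut _)).mul (((measurable_const.indicator hT).comp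
      (measurable_pos _ _)).mul (measurable_A _))
  rw [integral_map hTm.aemeasurable (hm _).aestronglyMeasurable,
    integral_map hTm.aemeasurable (hm _).aestronglyMeasurable]
  simp only [pos_arr le_rfl, pos_arr k.le_succ]
  exact h

/-- The hypotheses of the induction step hold in a limit. -/
theorem exists_hyp (hw : Weights w) (hk : 1 ≤ k) (hD : Determined L (comb w) k) (j : Spc)
    {A : Pat j.1} (hA : Below k A) (B : Finset (Fin j.1)) :
    ∃ H : Hyp k, H.P = L.P.map (arr w j A B) := by
  have hX := ggTree_comb L hw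
  obtain ⟨W, F, -, hF, hs⟩ := exists_sync L hw j B
  have hTm := measurable_arr (j := j) (A := A) (B := B) hX
  have hlip : ∀ x y, |clip (F x) - clip (F y)| ≤ W * |x - y| := fun x y =>
    (((abs_max_sub_max_le_max _ _ _ _).trans (max_le (by simp)
      ((abs_min_sub_min_le_max _ _ _ _).trans (max_le (by simp) le_rfl))))).trans (hF x y)
  have hFm : Measurable F :=
    Continuous.measurable (LipschitzWith.of_dist_le' fun x y => hF x y).continuous
  have hs' : ∀ a b : ℕ, a ≠ b →
      ∀ᵐ ω ∂L.P, R j (pair a b B) ω = (fun x => clip (F x)) (comb w a b ω) := fun a b hab => by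
    filter_upwards [hs a b hab] with ω hω
    rw [← hω, clip_of_abs_le (abs_R_le _ _ _)]
  have hpsd := inst_psd (A := A) (k := k) (F := fun x => clip (F x)) hX
    (measurable_clip.comp hFm) hs'
  exact ⟨{
    P := L.P.map (arr w j A B)
    prob := Measure.isProbabilityMeasure_map hTm.aemeasurable
    kpos := hk
    ν := L.P.map (comb w 0 1)
    νprob := Measure.isProbabilityMeasure_map (measurable_comb hX 0 1).aemeasurable
    γ := posLaw L (comb w) k
    γprob := by unfold posLaw; infer_instance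
    L := fun x => clip (F x)
    C := W
    lip := hlip
    bddL := fun x => abs_clip_le _
    symm := inst_symm hX
    ultra := inst_ultra hX
    bddA := inst_bddA hX
    exch := inst_exch hX hA
    sgg := inst_sgg hX hk hA
    gg1 := inst_gg1 hX hA
    psd := hpsd
    star := inst_star hw hD hX hA }, rfl⟩

end

end Vale.Agent.P168.Induct
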