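import Vale.Agent.P168.Induct.Inst

/-!
P168: every multi-overlap is a function of the tree.
-/

namespace Vale.Agent.P168

open MeasureTheory
open scoped symmDiff

namespace Induct

variable {L : Lim} {w : (Σ j : Spc, Finset (Fin j.1)) → ℝ}

theorem determined_one : Determined L (comb w) 1 := by
  intro j A hA
  have he : A = single 0 (A.image Prod.snd) := by
    ext ⟨r, i⟩
    simp only [mem_single, Finset.mem_image, Prod.exists, exists_eq_right]
    constructor
    · exact fun h => ⟨Nat.lt_one_iff.1 (hA _ h), r, h⟩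
    · rintro ⟨rfl, a, ha⟩
      rwa [← Nat.lt_one_iff.1 (hA _ ha)]
  rw [he]
  refine ⟨fun _ => ∫ ω, R j (single 0 (A.image Prod.snd)) ω ∂L.P, measurable_const, fun _ => ?_,
    L.const1 j _⟩
  rw [← Real.norm_eq_abs]
  exact (norm_integral_le_of_norm_le_const (ae_of_all _ fun ω => abs_R_le _ _ ω)).trans (by simp)

theorem determined_succ (hw : Weights w) {k : ℕ} (hk : 1 ≤ k) (hD : Determined L (comb w) k) :
    Determined L (comb w) (k + 1) := by
  intro j A hA
  classical
  set A0 : Pat j.1 := A.filter fun p => p.1 < k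
  set B : Finset (Fin j.1) := (A.filter fun p => p.1 = k).image Prod.snd
  have he : A = flipPat A0 k B := by
    ext ⟨r, i⟩
    simp only [flipPat, Finset.mem_symmDiff, mem_single, A0, B, Finset.mem_filter, Finset.mem_image,
      Prod.exists, exists_eq_right]
    constructor
    · intro h
      rcases Nat.lt_or_ge r k with hr | hr
      · exact Or.inl ⟨⟨h, hr⟩, fun h' => absurd h'.1 hr.ne⟩
      · have : r = k := le_antisymm (Nat.lt_succ_iff.1 (hA _ h)) hr
        exact Or.inr ⟨⟨this, this ▸ h⟩, fun h' => absurd h'.2 (by omega)⟩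
    · rintro (⟨⟨h, -⟩, -⟩ | ⟨⟨rfl, h⟩, -⟩)
      · exact h
      · exact h
  obtain ⟨H, hH⟩ := exists_hyp hw hk hD j (A := A0) (fun p hp => (Finset.mem_filter.1 hp).2) B
  obtain ⟨G, hG, hGb, hGe⟩ := H.determined
  rw [hH] at hGe
  refine ⟨fun M => G (fun s s' => M s.castSucc s'.castSucc, fun s => M (Fin.last k) s.castSucc),
    hG.comp (by fun_prop), fun M => hGb _, ?_⟩
  filter_upwards [ae_of_ae_map (measurable_arr (ggTree_comb L hw)).aemeasurable hGe] with ω hω
  rw [zed_arr le_rfl] at hω
  rw [he]
  refine hω.trans (congrArg G (Prod.ext (funext fun s => funext fun s' => ?_) (funext fun s => ?_)))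
  · simp [placeK, matS]
  · simp [placeK, matS, posK, (Fin.castSucc_ne_last s).symm]

end Induct

/-- Every multi-overlap is determined by the tree. -/
theorem determined_all {L : Lim} {w : (Σ j : Spc, Finset (Fin j.1)) → ℝ} (hw : Weights w) :
    ∀ k, 1 ≤ k → Determined L (comb w) k := by
  intro k hk
  induction k, hk using Nat.le_induction with
  | base => exact Induct.determined_one
  | succ k hk ih => exact Induct.determined_succ hw hk ih

end Vale.Agent.P168
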